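import Vale.Agent.P237.Petty.Lift.Star.Iso

/-!
# P237: Bobkov's inequality on the discrete cube and its limit on the Gauss line

The two point inequality is tensorised along the averages over the signs of `k` steps `± ε`. For
`ε = 1 / √k` these averages converge to the Gauss law, which gives the inequality on the line for a
bounded continuous majorant of the difference quotient.
-/

namespace Vale.Agent.P237.Petty.Lift.Star

open MeasureTheory Set Filter Topology ProbabilityTheory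

/-- The average of `f` over the end points of `k` steps `± ε` from `x`. -/
noncomputable def cubeAvg (ε : ℝ) : ℕ → (ℝ → ℝ) → ℝ → ℝ
  | 0, f => f
  | k + 1, f => fun x => (cubeAvg ε k f (x + ε) + cubeAvg ε k f (x - ε)) / 2

variable {ε : ℝ}

theorem cubeAvg_mono : ∀ (k : ℕ) {f g : ℝ → ℝ}, (∀ x, f x ≤ g x) → ∀ x,
    cubeAvg ε k f x ≤ cubeAvg ε k g x
  | 0, _, _, h, x => h x
  | k + 1, _, _, h, x => div_le_div_of_nonneg_right
      (add_le_add (cubeAvg_mono k h (x + ε)) (cubeAvg_mono k h (x - ε))) zero_le_two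

theorem cubeAvg_lin : ∀ (k : ℕ) (a b : ℝ) (f g : ℝ → ℝ) (x : ℝ),
    cubeAvg ε k (fun y => a * f y + b * g y) x = a * cubeAvg ε k f x + b * cubeAvg ε k g x
  | 0, _, _, _, _, _ => rfl
  | k + 1, a, b, f, g, x => by
    simp only [cubeAvg, cubeAvg_lin k a b f g]
    ring

theorem cubeAvg_shift : ∀ (k : ℕ) (h : ℝ) (f : ℝ → ℝ) (x : ℝ),
    cubeAvg ε k (fun y => f (y + h)) x = cubeAvg ε k f (x + h)
  | 0, _, _, _ => rfl
  | k + 1, h, f, x => by
    simp only [cubeAvg, cubeAvg_shift k h f]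
    ring_nf

theorem cubeAvg_mem : ∀ (k : ℕ) {v : ℝ → ℝ}, (∀ y, v y ∈ Ioo (0 : ℝ) 1) → ∀ x,
    cubeAvg ε k v x ∈ Ioo (0 : ℝ) 1
  | 0, _, h, x => h x
  | k + 1, _, h, x => by
    obtain ⟨h1, h2⟩ := cubeAvg_mem k h (x + ε)
    obtain ⟨h3, h4⟩ := cubeAvg_mem k h (x - ε)
    refine ⟨?_, ?_⟩
    · simp only [cubeAvg]; linarith
    · simp only [cubeAvg]; linarith

/-- The triangle inequality for an average. -/
theorem sqrt_sq_add_le_cubeAvg (k : ℕ) {A B : ℝ → ℝ} (x : ℝ) :
    √(cubeAvg ε k A x ^ 2 + cubeAvg ε k B x ^ 2) ≤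
      cubeAvg ε k (fun y => √(A y ^ 2 + B y ^ 2)) x := by
  set p := cubeAvg ε k A x
  set q := cubeAvg ε k B x
  set R := √(p ^ 2 + q ^ 2)
  set T := cubeAvg ε k (fun y => √(A y ^ 2 + B y ^ 2)) x
  have hT0 : 0 ≤ T := by
    have h := cubeAvg_mono (ε := ε) k (f := fun y => 0 * A y + 0 * B y)
      (g := fun y => √(A y ^ 2 + B y ^ 2)) (fun y => by simp) x
    rw [cubeAvg_lin] at h
    simpa using h
  have h := cubeAvg_mono (ε := ε) k (f := fun y => p * A y + q * B y)
    (g := fun y => R * √(A y ^ 2 + B y ^ 2) + 0 * A y) (fun y => by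
      have hm : p * A y + q * B y ≤ √((p ^ 2 + q ^ 2) * (A y ^ 2 + B y ^ 2)) :=
        Real.le_sqrt_of_sq_le (by nlinarith [sq_nonneg (p * B y - q * A y)])
      rw [Real.sqrt_mul (by positivity)] at hm
      simpa using hm) x
  rw [cubeAvg_lin, cubeAvg_lin] at h
  have e : R * R = p ^ 2 + q ^ 2 := Real.mul_self_sqrt (by positivity)
  rcases (Real.sqrt_nonneg (p ^ 2 + q ^ 2)).eq_or_lt with h0 | h0
  · exact h0.ge.trans hT0
  · refine le_of_mul_le_mul_left ?_ h0
    have hh : p * p + q * q ≤ R * T := by simpa using h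
    linarith

/-- The inequality on the cube: `q` dominates half the increment over one edge. -/
theorem cube_bobkov : ∀ (k : ℕ) {v q : ℝ → ℝ}, (∀ y, v y ∈ Ioo (0 : ℝ) 1) →
    (∀ y, |v y - v (y - 2 * ε)| / 2 ≤ q y ∧ |v y - v (y + 2 * ε)| / 2 ≤ q y) → ∀ x,
    isoI (cubeAvg ε k v x) ≤ cubeAvg ε k (fun y => √(isoI (v y) ^ 2 + k * q y ^ 2)) x
  | 0, v, q, _, _, x => by
    simp [cubeAvg, Real.sqrt_sq (isoI_pos _).le]
  | k + 1, v, q, hv, hq, x => by
    set a := cubeAvg ε k v (x + ε) with ha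
    set b := cubeAvg ε k v (x - ε) with hb
    have hstep : ∀ z h : ℝ, (∀ y, |v y - v (y + h)| / 2 ≤ q y) →
        √(isoI (cubeAvg ε k v z) ^ 2 + ((cubeAvg ε k v z - cubeAvg ε k v (z + h)) / 2) ^ 2) ≤
          cubeAvg ε k (fun y => √(isoI (v y) ^ 2 + ((k + 1 : ℕ) : ℝ) * q y ^ 2)) z := by
      intro z h hh
      have hd : |(cubeAvg ε k v z - cubeAvg ε k v (z + h)) / 2| ≤ cubeAvg ε k q z := by
        have e : ∀ s : ℝ, cubeAvg ε k (fun y => s / 2 * v y + -(s / 2) * v (y + h)) z =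
            s * ((cubeAvg ε k v z - cubeAvg ε k v (z + h)) / 2) := fun s => by
          rw [cubeAvg_lin k (s / 2) (-(s / 2)) v (fun y => v (y + h)), cubeAvg_shift]
          ring
        rw [abs_le']
        refine ⟨?_, ?_⟩
        · have := cubeAvg_mono (ε := ε) k (f := fun y => 1 / 2 * v y + -(1 / 2) * v (y + h))
            (g := q) (fun y => by linarith [hh y, le_abs_self (v y - v (y + h))]) z
          rw [e 1] at this
          linarith
        · have := cubeAvg_mono (ε := ε) k (f := fun y => -1 / 2 * v y + -(-1 / 2) * v (y + h))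
            (g := q) (fun y => by linarith [hh y, neg_le_abs (v y - v (y + h))]) z
          rw [e (-1)] at this
          linarith
      have hI := cube_bobkov k hv hq z
      calc √(isoI (cubeAvg ε k v z) ^ 2 + ((cubeAvg ε k v z - cubeAvg ε k v (z + h)) / 2) ^ 2)
          ≤ √(cubeAvg ε k (fun y => √(isoI (v y) ^ 2 + k * q y ^ 2)) z ^ 2 +
              cubeAvg ε k q z ^ 2) :=
            Real.sqrt_le_sqrt (add_le_add (pow_le_pow_left₀ (isoI_pos _).le hI 2)
              (sq_le_sq' (abs_le.1 hd).1 (abs_le.1 hd).2))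
        _ ≤ _ := sqrt_sq_add_le_cubeAvg k z
        _ = _ := by
          congr 1
          funext y
          rw [Real.sq_sqrt (by positivity)]
          push_cast
          ring_nf
    have h1 := hstep (x + ε) (-(2 * ε)) fun y => by
      have := (hq y).1; rwa [← sub_eq_add_neg]
    have h2 := hstep (x - ε) (2 * ε) fun y => (hq y).2
    rw [show x + ε + -(2 * ε) = x - ε by ring] at h1
    rw [show x - ε + 2 * ε = x + ε by ring, ← ha, ← hb] at h2
    rw [← ha, ← hb] at h1
    have h3 := two_point (cubeAvg_mem (ε := ε) k hv (x + ε)) (cubeAvg_mem (ε := ε) k hv (x - ε))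
    rw [show ((b - a) / 2) ^ 2 = ((a - b) / 2) ^ 2 by ring] at h2
    show isoI ((a + b) / 2) ≤ (cubeAvg ε k _ (x + ε) + cubeAvg ε k _ (x - ε)) / 2
    linarith

/-- The law of the end point of `k` steps `± ε` from `x`. -/
noncomputable def cubeLaw (ε : ℝ) : ℕ → ℝ → Measure ℝ
  | 0, x => Measure.dirac x
  | k + 1, x => (2 : ENNReal)⁻¹ • (cubeLaw ε k (x + ε) + cubeLaw ε k (x - ε))

theorem isProb_cubeLaw : ∀ (k : ℕ) (x : ℝ), IsProbabilityMeasure (cubeLaw ε k x)
  | 0, x => by simp only [cubeLaw]; infer_instance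
  | k + 1, x => by
    have := isProb_cubeLaw k (x + ε)
    have := isProb_cubeLaw k (x - ε)
    refine ⟨?_⟩
    simp [cubeLaw, measure_univ, ENNReal.inv_two_add_inv_two]

theorem integral_cubeLaw_succ {E : Type*} [NormedAddCommGroup E] [NormedSpace ℝ E]
    {f : ℝ → E} (hf : Continuous f) {C : ℝ} (hC : ∀ y, ‖f y‖ ≤ C) (k : ℕ) (x : ℝ) :
    ∫ y, f y ∂cubeLaw ε (k + 1) x =
      (2 : ℝ)⁻¹ • ((∫ y, f y ∂cubeLaw ε k (x + ε)) + ∫ y, f y ∂cubeLaw ε k (x - ε)) := by
  have := isProb_cubeLaw (ε := ε) k (x + ε)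
  have := isProb_cubeLaw (ε := ε) k (x - ε)
  have hi : ∀ μ : Measure ℝ, IsProbabilityMeasure μ → Integrable f μ := fun μ _ =>
    Integrable.of_bound hf.aestronglyMeasurable C (ae_of_all _ hC)
  rw [cubeLaw, integral_smul_measure, integral_add_measure (hi _ inferInstance) (hi _ inferInstance)]
  simp

theorem integral_cubeLaw {f : ℝ → ℝ} (hf : Continuous f) {C : ℝ} (hC : ∀ y, ‖f y‖ ≤ C) :
    ∀ (k : ℕ) (x : ℝ), ∫ y, f y ∂cubeLaw ε k x = cubeAvg ε k f x
  | 0, x => by simp [cubeLaw, cubeAvg]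
  | k + 1, x => by
    rw [integral_cubeLaw_succ hf hC, integral_cubeLaw hf hC k, integral_cubeLaw hf hC k, cubeAvg,
      smul_eq_mul]
    ring

theorem charFun_cubeLaw (t : ℝ) : ∀ (k : ℕ) (x : ℝ),
    charFun (cubeLaw ε k x) t = Complex.exp (t * x * Complex.I) * (Real.cos (t * ε) : ℂ) ^ k
  | 0, x => by simp [cubeLaw]
  | k + 1, x => by
    have h := integral_cubeLaw_succ (E := ℂ) (ε := ε)
      (f := fun y : ℝ => Complex.exp (t * y * Complex.I)) (by fun_prop) (C := 1)
      (fun y => by rw [← Complex.ofReal_mul, Complex.norm_exp_ofReal_mul_I]) k x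
    simp only [← charFun_apply_real, charFun_cubeLaw t k] at h
    rw [h, Complex.real_smul]
    push_cast
    rw [Complex.cos, pow_succ,
      show (t : ℂ) * (x + ε) * Complex.I = t * x * Complex.I + t * ε * Complex.I by ring,
      show (t : ℂ) * (x - ε) * Complex.I = t * x * Complex.I + -(t * ε) * Complex.I by ring,
      Complex.exp_add, Complex.exp_add]
    ring

/-- The cube averages converge to the Gauss average. -/
theorem tendsto_cubeAvg {f : ℝ → ℝ} (hf : Continuous f) {C : ℝ} (hC : ∀ y, ‖f y‖ ≤ C) :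
    Tendsto (fun k : ℕ => cubeAvg (√k)⁻¹ k f 0) atTop (𝓝 (∫ y, gphi y * f y)) := by
  set P : ℕ → ProbabilityMeasure ℝ := fun k => ⟨cubeLaw (√k)⁻¹ k 0, isProb_cubeLaw k 0⟩
  set Q : ProbabilityMeasure ℝ := ⟨gaussianReal 0 1, inferInstance⟩
  have hP : Tendsto P atTop (𝓝 Q) := by
    refine ProbabilityMeasure.tendsto_iff_tendsto_charFun.2 fun t => ?_
    have := isProb_cubeLaw (ε := (1 : ℝ)) 1 0
    have hc : ∀ s : ℝ, charFun ((cubeLaw 1 1 0).map id) s = (Real.cos s : ℂ) := fun s => by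
      rw [Measure.map_id, charFun_cubeLaw]
      simp
    have hb : ∀ y : ℝ, Integrable (fun z : ℝ => z) (Measure.dirac y) := fun y => integrable_dirac
      (by simp)
    have h0 : ∫ z, id z ∂cubeLaw 1 1 0 = 0 := by
      simp only [cubeLaw, id]
      rw [integral_smul_measure, integral_add_measure (hb _) (hb _)]
      simp
    have h1 : ∫ z, (id ^ 2 : ℝ → ℝ) z ∂cubeLaw 1 1 0 = 1 := by
      simp only [cubeLaw, Pi.pow_apply, id]
      rw [integral_smul_measure, integral_add_measure (integrable_dirac (by simp))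
        (integrable_dirac (by simp))]
      simp
      norm_num
    have h := tendsto_charFun_inv_sqrt_mul_pow (P := cubeLaw 1 1 0) aemeasurable_id h0 h1 t
    simp only [hc] at h
    simp only [P, Q, ProbabilityMeasure.coe_mk, charFun_cubeLaw, charFun_gaussianReal]
    convert h using 1
    · funext k
      simp [mul_comm]
    · congr 1
      push_cast
      ring_nf
  have h := (ProbabilityMeasure.tendsto_iff_forall_integral_tendsto.1 hP)
    (BoundedContinuousFunction.ofNormedAddCommGroup f hf C hC)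
  simp only [P, Q, ProbabilityMeasure.coe_mk, BoundedContinuousFunction.coe_ofNormedAddCommGroup,
    integral_gaussianReal_eq_integral_smul one_ne_zero, smul_eq_mul, ← gphi_eq] at h
  exact h.congr fun k => integral_cubeLaw hf hC k 0

/-- The inequality on the line for a bounded continuous majorant of the increments. -/
theorem line_bobkov {v Q : ℝ → ℝ} (hv : ∀ y, v y ∈ Ioo (0 : ℝ) 1) (hvc : Continuous v)
    (hQc : Continuous Q) {C : ℝ} (hQ0 : ∀ y, 0 ≤ Q y) (hQC : ∀ y, Q y ≤ C)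
    (hinc : ∀ᶠ ε in 𝓝[>] (0 : ℝ), ∀ y,
      |v y - v (y - 2 * ε)| / 2 ≤ ε * Q y ∧ |v y - v (y + 2 * ε)| / 2 ≤ ε * Q y)
    (hm : (∫ y, gphi y * v y) ∈ Ioo (0 : ℝ) 1) :
    isoI (∫ y, gphi y * v y) ≤ ∫ y, gphi y * √(isoI (v y) ^ 2 + Q y ^ 2) := by
  set F : ℝ → ℝ := fun y => √(isoI (v y) ^ 2 + Q y ^ 2)
  have hFc : Continuous F :=
    (((continuousOn_isoI.comp_continuous hvc hv).pow 2).add (hQc.pow 2)).sqrt
  have hF : ∀ y, ‖F y‖ ≤ gphi 0 + C := fun y => by
    rw [Real.norm_of_nonneg (Real.sqrt_nonneg _)]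
    refine (Real.sqrt_le_iff.2 ⟨by linarith [gphi_pos 0, (hQ0 y).trans (hQC y)], ?_⟩)
    nlinarith [isoI_pos (v y), isoI_le (v y), hQ0 y, hQC y, gphi_pos 0]
  have h1 := tendsto_cubeAvg hvc (C := 1) fun y => by
    rw [Real.norm_of_nonneg (hv y).1.le]; exact (hv y).2.le
  have h2 := tendsto_cubeAvg hFc hF
  have he : Tendsto (fun k : ℕ => (√k)⁻¹) atTop (𝓝[>] (0 : ℝ)) := by
    refine tendsto_nhdsWithin_iff.2 ⟨tendsto_inv_atTop_zero.comp
      (Real.tendsto_sqrt_atTop.comp tendsto_natCast_atTop_atTop), ?_⟩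
    filter_upwards [eventually_gt_atTop 0] with k hk
    have : (0 : ℝ) < k := Nat.cast_pos.2 hk
    exact inv_pos.2 (Real.sqrt_pos.2 this)
  refine le_of_tendsto_of_tendsto
    (((continuousOn_isoI.continuousAt (Ioo_mem_nhds hm.1 hm.2)).tendsto).comp h1) h2 ?_
  filter_upwards [he.eventually hinc, eventually_gt_atTop 0] with k hk hk0
  have hkp : (0 : ℝ) < k := Nat.cast_pos.2 hk0
  refine (cube_bobkov k hv hk 0).trans_eq ?_
  congr 1
  funext y
  simp only [F]
  rw [mul_pow, inv_pow, Real.sq_sqrt hkp.le, ← mul_assoc, mul_inv_cancel₀ hkp.ne', one_mul]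

end Vale.Agent.P237.Petty.Lift.Star
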