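import Vale.Agent.P237.Petty.Lift.Star.Defs
import Vale.Agent.P237.Petty.Lift.Star.Cube

/-!
# P237: Bobkov's inequality for graphs over the Gauss line

The bound on the line is applied to `gtail (G ·)` frozen outside `[-N, N]`, and `N` tends to
infinity.
-/

namespace Vale.Agent.P237.Petty.Lift.Star

open MeasureTheory Set Filter Topology

/-- The projection to `[-N, N]`. -/
noncomputable def clampN (N y : ℝ) : ℝ := max (-N) (min N y)

theorem clampN_mem {N : ℝ} (hN : 0 ≤ N) (y : ℝ) : clampN N y ∈ Icc (-N) N :=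
  ⟨le_max_left _ _, max_le (by linarith) (min_le_left _ _)⟩

theorem clampN_self {N y : ℝ} (h : |y| ≤ N) : clampN N y = y := by
  rw [clampN, min_eq_right (abs_le.1 h).2, max_eq_right (abs_le.1 h).1]

theorem abs_clampN_sub_le (N a b : ℝ) : |clampN N a - clampN N b| ≤ |a - b| := by
  unfold clampN
  refine (abs_max_sub_max_le_max _ _ _ _).trans ?_
  simp only [sub_self, abs_zero]
  refine max_le (abs_nonneg _) ((abs_min_sub_min_le_max _ _ _ _).trans ?_)
  simp

theorem clampN_eq_of_far {N δ a b : ℝ} (hN : 0 ≤ N) (ha : N + δ ≤ |a|) (hab : |a - b| ≤ δ) :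
    clampN N a = clampN N b := by
  unfold clampN
  obtain ⟨h1, h2⟩ := abs_le.1 hab
  rcases le_total 0 a with h | h
  · rw [abs_of_nonneg h] at ha
    rw [min_eq_left (by linarith), min_eq_left (by linarith)]
  · rw [abs_of_nonpos h] at ha
    rw [min_eq_right (by linarith), min_eq_right (by linarith), max_eq_left (by linarith),
      max_eq_left (by linarith)]

theorem integral_gphi_mul_mem {v : ℝ → ℝ} (hv : ∀ y, v y ∈ Ioo (0 : ℝ) 1) (hvc : Continuous v) :
    (∫ y, gphi y * v y) ∈ Ioo (0 : ℝ) 1 := by
  have hi : ∀ w : ℝ → ℝ, Continuous w → (∀ y, w y ∈ Ioo (0 : ℝ) 1) →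
      Integrable (fun y => gphi y * w y) ∧ 0 < ∫ y, gphi y * w y := fun w hw hm => by
    have h1 : Integrable (fun y => gphi y * w y) :=
      integrable_gphi.mono' (by fun_prop) (ae_of_all _ fun y => by
        rw [Real.norm_of_nonneg (mul_nonneg (gphi_pos y).le (hm y).1.le)]
        exact mul_le_of_le_one_right (gphi_pos y).le (hm y).2.le)
    exact ⟨h1, integral_pos_of_integrable_nonneg_nonzero
      (continuous_gphi.mul hw) h1 (fun y => mul_nonneg (gphi_pos y).le (hm y).1.le)
      (x := 0) (mul_pos (gphi_pos 0) (hm 0).1).ne'⟩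
  obtain ⟨h1, h2⟩ := hi v hvc hv
  obtain ⟨-, h4⟩ := hi (fun y => 1 - v y) (continuous_const.sub hvc) fun y =>
    ⟨by linarith [(hv y).2], by linarith [(hv y).1]⟩
  simp only [mul_sub, mul_one] at h4
  rw [integral_sub integrable_gphi h1, integral_gphi] at h4
  exact ⟨h2, by linarith⟩

/-- Bobkov's inequality for a frozen graph. -/
theorem frozen_bobkov {G G' : ℝ → ℝ} (hG : ∀ x, HasDerivAt G (G' x) x) (hG' : Continuous G')
    (hJ : Integrable fun x => gphi x * (gphi (G x) * √(1 + G' x ^ 2))) {N : ℝ} (hN : 0 ≤ N) :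
    isoI (∫ y, gphi y * gtail (G (clampN N y))) ≤
      (∫ x, gphi x * (gphi (G x) * √(1 + G' x ^ 2))) +
        gphi 0 * ∫ y, ({y : ℝ | N < |y|}).indicator gphi y := by
  have hGc : Continuous G := continuous_iff_continuousAt.2 fun x => (hG x).continuousAt
  set d : ℝ → ℝ := fun x => -gphi (G x) * G' x with hd
  have hdd : ∀ x, HasDerivAt (fun x => gtail (G x)) (d x) x := fun x =>
    (hasDerivAt_gtail (G x)).comp x (hG x)
  have hdc : Continuous d := ((continuous_gphi.comp hGc).neg).mul hG'
  have hκc : Continuous (clampN N) := by unfold clampN; fun_prop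
  set v : ℝ → ℝ := fun y => gtail (G (clampN N y))
  have hvc : Continuous v := continuous_gtail.comp (hGc.comp hκc)
  have hvm : ∀ y, v y ∈ Ioo (0 : ℝ) 1 := fun y => gtail_mem _
  obtain ⟨M, hM⟩ := isCompact_Icc.exists_bound_of_continuousOn (hdc.continuousOn (s := Icc (-N) N))
  have hMy : ∀ y, |d (clampN N y)| ≤ M := fun y => hM _ (clampN_mem hN y)
  set Qf : ℕ → ℝ → ℝ := fun j y => (|d (clampN N y)| + 1 / ((j : ℝ) + 1)) *
    max 0 (min 1 ((N + 2 * (1 / ((j : ℝ) + 1)) - |y|) / (1 / ((j : ℝ) + 1))))
  have hη : ∀ j : ℕ, 0 < 1 / ((j : ℝ) + 1) := fun j => by positivity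
  have hQ0 : ∀ j y, 0 ≤ Qf j y := fun j y =>
    mul_nonneg (add_nonneg (abs_nonneg _) (hη j).le) (le_max_left _ _)
  have hQC : ∀ j y, Qf j y ≤ M + 1 := fun j y => by
    refine (mul_le_of_le_one_right (add_nonneg (abs_nonneg _) (hη j).le)
      (max_le zero_le_one (min_le_left _ _))).trans (add_le_add (hMy y) ?_)
    exact (div_le_one (by positivity)).2 (by linarith [j.cast_nonneg (α := ℝ)])
  have hQc : ∀ j, Continuous (Qf j) := fun j =>
    ((hdc.comp hκc).abs.add continuous_const).mul (by fun_prop)
  have hstep : ∀ j, isoI (∫ y, gphi y * v y) ≤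
      ∫ y, gphi y * √(isoI (v y) ^ 2 + Qf j y ^ 2) := fun j => by
    refine line_bobkov hvm hvc (hQc j) (hQ0 j) (hQC j) ?_ (integral_gphi_mul_mem hvm hvc)
    set η := 1 / ((j : ℝ) + 1) with hηdef
    obtain ⟨ρ, hρ, hρd⟩ := Metric.uniformContinuousOn_iff.1
      (isCompact_Icc.uniformContinuousOn_of_continuous (hdc.continuousOn (s := Icc (-N) N))) η (hη j)
    have hlim : Tendsto (fun ε : ℝ => 2 * ε) (𝓝[>] 0) (𝓝 0) := by
      simpa using ((continuous_const.mul continuous_id).tendsto (0 : ℝ)).mono_left
        (nhdsWithin_le_nhds (s := Ioi (0 : ℝ))) (f := fun ε : ℝ => (2 : ℝ) * ε)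
    filter_upwards [hlim.eventually_lt_const (lt_min hρ (hη j)), self_mem_nhdsWithin]
      with ε hε hε0
    rw [mem_Ioi] at hε0
    have key : ∀ y z, |y - z| ≤ 2 * ε → |v y - v z| / 2 ≤ ε * Qf j y := fun y z hyz => by
      by_cases hy : N + η ≤ |y|
      · have e := clampN_eq_of_far hN hy (hyz.trans ((hε.trans_le (min_le_right _ _)).le))
        simp only [v, e, sub_self, abs_zero, zero_div]
        exact mul_nonneg hε0.le (hQ0 j y)
      · have h1 : max 0 (min 1 ((N + 2 * η - |y|) / η)) = 1 := by
          rw [min_eq_left ((one_le_div (hη j)).2 (by linarith [not_le.1 hy])),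
            max_eq_right zero_le_one]
        have hconv := (convex_uIcc (clampN N z) (clampN N y)).norm_image_sub_le_of_norm_hasDerivWithin_le
          (C := |d (clampN N y)| + η) (fun x _ => (hdd x).hasDerivWithinAt) (fun x hx => ?_)
          left_mem_uIcc right_mem_uIcc
        · simp only [Qf, ← hηdef, h1, mul_one]
          simp only [Real.norm_eq_abs] at hconv
          have h2 := (abs_clampN_sub_le N y z).trans hyz
          have h3 : |v y - v z| ≤ (|d (clampN N y)| + η) * (2 * ε) :=
            hconv.trans (mul_le_mul_of_nonneg_left h2 (add_nonneg (abs_nonneg _) (hη j).le))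
          linarith
        · have hxI : x ∈ Icc (-N) N :=
            uIcc_subset_Icc (clampN_mem hN z) (clampN_mem hN y) hx
          have hdist : dist x (clampN N y) < ρ := by
            refine lt_of_le_of_lt ?_ (hε.trans_le (min_le_left _ _))
            rw [Real.dist_eq, abs_sub_comm]
            exact (abs_sub_right_of_mem_uIcc hx).trans ((abs_clampN_sub_le N y z).trans hyz)
          have h := hρd x hxI _ (clampN_mem hN y) hdist
          rw [Real.dist_eq] at h
          rw [Real.norm_eq_abs]
          linarith [abs_add_le (d x - d (clampN N y)) (d (clampN N y)),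
            show d x - d (clampN N y) + d (clampN N y) = d x by ring,
            congrArg abs (show d x - d (clampN N y) + d (clampN N y) = d x by ring)]
    exact fun y => ⟨key y _ (le_of_eq (by rw [sub_sub_cancel, abs_of_pos (by linarith)])),
      key y _ (le_of_eq (by rw [sub_add_cancel_left, abs_neg, abs_of_pos (by linarith)]))⟩
  -- the majorants converge
  set L : ℝ → ℝ := fun y => if |y| ≤ N then |d y| else 0
  have hlim : Tendsto (fun j => ∫ y, gphi y * √(isoI (v y) ^ 2 + Qf j y ^ 2)) atTop
      (𝓝 (∫ y, gphi y * √(isoI (v y) ^ 2 + L y ^ 2))) := by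
    refine tendsto_integral_of_dominated_convergence (fun y => gphi y * (gphi 0 + (M + 1)))
      (fun j => (continuous_gphi.mul (((continuousOn_isoI.comp_continuous hvc hvm).pow 2).add
        ((hQc j).pow 2)).sqrt).aestronglyMeasurable) (integrable_gphi.mul_const _)
      (fun j => ae_of_all _ fun y => ?_) (ae_of_all _ fun y => ?_)
    · rw [norm_mul, Real.norm_of_nonneg (gphi_pos y).le, Real.norm_of_nonneg (Real.sqrt_nonneg _)]
      refine mul_le_mul_of_nonneg_left (Real.sqrt_le_iff.2
        ⟨by linarith [gphi_pos 0, (hQ0 j y).trans (hQC j y)], ?_⟩) (gphi_pos y).le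
      nlinarith [isoI_pos (v y), isoI_le (v y), hQ0 j y, hQC j y, gphi_pos 0]
    · refine ((Tendsto.pow ?_ 2).const_add _).sqrt.const_mul _
      by_cases hy : |y| ≤ N
      · have h1 : ∀ j : ℕ, Qf j y = |d y| + 1 / ((j : ℝ) + 1) := fun j => by
          simp only [Qf, clampN_self hy]
          rw [min_eq_left ((one_le_div (hη j)).2 (by linarith [hη j])), max_eq_right zero_le_one,
            mul_one]
        simp only [L, if_pos hy, h1]
        simpa using (tendsto_one_div_add_atTop_nhds_zero_nat (𝕜 := ℝ)).const_add |d y|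
      · simp only [L, if_neg hy]
        refine tendsto_const_nhds.congr' ?_
        filter_upwards [(tendsto_one_div_add_atTop_nhds_zero_nat (𝕜 := ℝ)).eventually_lt_const
          (show 0 < (|y| - N) / 2 by linarith [not_le.1 hy])] with j hj
        simp only [Qf]
        rw [max_eq_left ((min_le_right _ _).trans (div_nonpos_of_nonpos_of_nonneg (by linarith)
          (hη j).le)), mul_zero]
  refine (ge_of_tendsto' hlim hstep).trans ?_
  have hSm : MeasurableSet {y : ℝ | N < |y|} := measurableSet_lt measurable_const continuous_abs.measurable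
  have hi1 : Integrable fun y => ({y : ℝ | N < |y|}).indicator gphi y :=
    integrable_gphi.indicator hSm
  have hJ0 : ∀ y, 0 ≤ gphi y * (gphi (G y) * √(1 + G' y ^ 2)) := fun y =>
    mul_nonneg (gphi_pos y).le (mul_nonneg (gphi_pos _).le (Real.sqrt_nonneg _))
  rw [← integral_const_mul, ← integral_add hJ (hi1.const_mul _)]
  refine integral_mono_of_nonneg (ae_of_all _ fun y => mul_nonneg (gphi_pos y).le
    (Real.sqrt_nonneg _)) (hJ.add (hi1.const_mul _)) (ae_of_all _ fun y => ?_)
  simp only []
  by_cases hy : |y| ≤ N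
  · rw [indicator_of_notMem (show y ∉ {y : ℝ | N < |y|} from not_lt.2 hy), mul_zero, add_zero]
    refine le_of_eq ?_
    congr 1
    simp only [L, if_pos hy, v, clampN_self hy, isoI_gtail, hd, sq_abs]
    rw [show gphi (G y) ^ 2 + (-gphi (G y) * G' y) ^ 2 = gphi (G y) ^ 2 * (1 + G' y ^ 2) by ring,
      Real.sqrt_mul (sq_nonneg _), Real.sqrt_sq (gphi_pos _).le]
  · rw [indicator_of_mem (show y ∈ {y : ℝ | N < |y|} from not_le.1 hy)]
    simp only [L, if_neg hy]
    rw [zero_pow two_ne_zero, add_zero, Real.sqrt_sq (isoI_pos _).le]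
    nlinarith [hJ0 y, mul_le_mul_of_nonneg_left (isoI_le (v y)) (gphi_pos y).le]

/-- Bobkov's inequality on the Gauss line, normalised. -/
theorem bobkov_normalised {G G' : ℝ → ℝ} (hG : ∀ x, HasDerivAt G (G' x) x) (hG' : Continuous G')
    (hJ : Integrable fun x => gphi x * (gphi (G x) * √(1 + G' x ^ 2))) :
    isoI (∫ x, gphi x * gtail (G x)) ≤ ∫ x, gphi x * (gphi (G x) * √(1 + G' x ^ 2)) := by
  have hGc : Continuous G := continuous_iff_continuousAt.2 fun x => (hG x).continuousAt
  have hm := integral_gphi_mul_mem (v := fun x => gtail (G x)) (fun x => gtail_mem _)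
    (continuous_gtail.comp hGc)
  have hlarge : ∀ y : ℝ, ∀ᶠ N : ℕ in atTop, |y| ≤ N := fun y =>
    tendsto_natCast_atTop_atTop.eventually_ge_atTop |y|
  have h1 : Tendsto (fun N : ℕ => ∫ y, gphi y * gtail (G (clampN N y))) atTop
      (𝓝 (∫ y, gphi y * gtail (G y))) := by
    refine tendsto_integral_of_dominated_convergence gphi (fun N => ?_) integrable_gphi
      (fun N => ae_of_all _ fun y => ?_) (ae_of_all _ fun y => ?_)
    · exact (continuous_gphi.mul (continuous_gtail.comp (hGc.comp
        (by unfold clampN; fun_prop)))).aestronglyMeasurable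
    · rw [Real.norm_of_nonneg (mul_nonneg (gphi_pos y).le (gtail_mem _).1.le)]
      exact mul_le_of_le_one_right (gphi_pos y).le (gtail_mem _).2.le
    · refine tendsto_const_nhds.congr' ?_
      filter_upwards [hlarge y] with N hN using by rw [clampN_self hN]
  have h2 : Tendsto (fun N : ℕ => ∫ y, ({y : ℝ | (N : ℝ) < |y|}).indicator gphi y) atTop (𝓝 0) := by
    have := tendsto_integral_of_dominated_convergence (F := fun N : ℕ => fun y =>
      ({y : ℝ | (N : ℝ) < |y|}).indicator gphi y) (f := fun _ => (0 : ℝ)) (μ := volume) gphi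
      (fun N => (integrable_gphi.indicator
        (measurableSet_lt measurable_const continuous_abs.measurable)).aestronglyMeasurable)
      integrable_gphi (fun N => ae_of_all _ fun y => by
        rw [Real.norm_of_nonneg (indicator_nonneg (fun z _ => (gphi_pos z).le) y)]
        exact indicator_le_self' (fun z _ => (gphi_pos z).le) y)
      (ae_of_all _ fun y => tendsto_const_nhds.congr' (by
        filter_upwards [hlarge y] with N hN using
          (indicator_of_notMem (show y ∉ {y : ℝ | (N : ℝ) < |y|} from not_lt.2 hN) gphi).symm))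
    simpa using this
  have h3 := (h2.const_mul (gphi 0)).const_add (∫ x, gphi x * (gphi (G x) * √(1 + G' x ^ 2)))
  rw [mul_zero, add_zero] at h3
  exact le_of_tendsto_of_tendsto' (((continuousOn_isoI.continuousAt
    (Ioo_mem_nhds hm.1 hm.2)).tendsto).comp h1) h3 fun N => frozen_bobkov hG hG' hJ N.cast_nonneg

theorem wt_zero_eq (x : ℝ) : Stam.wt 0 x = √(2 * Real.pi) * gphi x := by
  have h : √(2 * Real.pi) ≠ 0 := by positivity
  rw [Stam.wt, gphi, pow_zero, one_mul, ← mul_assoc, mul_inv_cancel₀ h, one_mul]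

theorem radial_zero_eq : radial 0 = √(2 * Real.pi) * gtail 0 := by
  rw [gtail, ← integral_const_mul]
  refine setIntegral_congr_fun measurableSet_Ioi fun x _ => ?_
  rw [← wt_zero_eq]
  rfl

theorem tail_eq (x : ℝ) : tail x = √(2 * Real.pi) * gtail x := by
  have h : ∀ y, HasDerivAt (fun y => tail y - √(2 * Real.pi) * gtail y) 0 y := fun y => by
    refine (((Stam.hasDerivAt_gam 0 y).const_sub (radial 0)).sub
      ((hasDerivAt_gtail y).const_mul _)).congr_deriv ?_
    rw [wt_zero_eq]; ring
  have hc := is_const_of_deriv_eq_zero (fun y => (h y).differentiableAt) (fun y => (h y).deriv) x 0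
  simp only [tail, Stam.gam, intervalIntegral.integral_same, sub_zero, radial_zero_eq,
    sub_self] at hc ⊢
  linarith

/-- The isoperimetric input of the entropy bound by the mean gradient. -/
theorem gauss_bobkov : GaussBobkov := by
  intro G G' τ hG hG' hi hτ
  set s := √(2 * Real.pi)
  have hs : 0 < s := by positivity
  have hr : 2 * radial 0 = s := by
    rw [radial_zero_eq]
    have h0 := gtail_neg 0
    rw [neg_zero] at h0
    linear_combination s * h0
  have e1 : (fun x => Stam.wt 0 (G x) * √(1 + G' x ^ 2) * Stam.wt 0 x) =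
      fun x => s * s * (gphi x * (gphi (G x) * √(1 + G' x ^ 2))) := funext fun x => by
    simp only [wt_zero_eq]; ring
  have e2 : (fun x => tail (G x) * Stam.wt 0 x) = fun x => s * s * (gphi x * gtail (G x)) :=
    funext fun x => by simp only [wt_zero_eq, tail_eq]; ring
  rw [e1] at hi ⊢
  rw [e2, hr, integral_const_mul, tail_eq] at hτ
  have hJ : Integrable fun x => gphi x * (gphi (G x) * √(1 + G' x ^ 2)) :=
    (hi.const_mul (s * s)⁻¹).congr (ae_of_all _ fun x => by
      show (s * s)⁻¹ * (s * s * _) = _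
      rw [← mul_assoc, inv_mul_cancel₀ (mul_pos hs hs).ne', one_mul])
  have hτ' : ∫ x, gphi x * gtail (G x) = gtail τ := by
    field_simp at hτ
    exact mul_left_cancel₀ hs.ne' hτ
  have h := bobkov_normalised hG hG' hJ
  rw [hτ', isoI_gtail] at h
  rw [hr, integral_const_mul, wt_zero_eq]
  refine (mul_le_mul_of_nonneg_left h hs.le).trans_eq ?_
  field_simp

end Vale.Agent.P237.Petty.Lift.Star
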