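import Vale.Agent.P237.Petty.Lift.Star.Defs
import Vale.Agent.P237.Petty.Lift.Radial

/-!
# P237: the chi law is a contraction of the Gaussian law

The increasing map of the Gaussian law of the line to the chi law of any degree has derivative at
most one: at a negative minimum of the difference of the two densities the difference would still
decrease.
-/

namespace Vale.Agent.P237.Petty.Lift.Star

open MeasureTheory Set Filter Topology
open Stam (wt wt_pos gam invGam gam_mem hasDerivAt_gam hasDerivAt_invGam invGam_mem invGam_gam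
  gam_invGam)

theorem wt_zero (x : ℝ) : wt 0 x = Real.exp (-(x ^ 2) / 2) := by simp [wt]

theorem wt_zero_pos (x : ℝ) : 0 < wt 0 x := by rw [wt_zero]; exact Real.exp_pos _

theorem hasDerivAt_tail (x : ℝ) : HasDerivAt tail (-wt 0 x) x :=
  (hasDerivAt_gam 0 x).const_sub (radial 0)

theorem continuous_tail : Continuous tail :=
  continuous_iff_continuousAt.2 fun x => (hasDerivAt_tail x).continuousAt

theorem gam_zero_neg (x : ℝ) : gam 0 (-x) = -gam 0 x := by
  have h := intervalIntegral.integral_comp_neg (a := (0 : ℝ)) (b := x) (wt 0)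
  have e : (fun u => wt 0 (-u)) = wt 0 := funext fun u => by simp [wt]
  rw [show (∫ u in (0 : ℝ)..x, wt 0 (-u)) = gam 0 x by rw [e]; rfl, neg_zero,
    intervalIntegral.integral_symm] at h
  change gam 0 x = -gam 0 (-x) at h
  linarith

theorem gam_zero_mem (x : ℝ) : gam 0 x ∈ Ioo (-radial 0) (radial 0) := by
  have hr := radial_pos 0
  rcases lt_trichotomy x 0 with h | rfl | h
  · have := gam_mem 0 (neg_pos.2 h)
    rw [gam_zero_neg] at this
    exact ⟨by linarith [this.2], by linarith [this.1]⟩
  · simp [gam, hr]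
  · have := gam_mem 0 h
    exact ⟨by linarith [this.1], this.2⟩

theorem tendsto_tail_atTop : Tendsto tail atTop (𝓝 0) := by
  have h := (Stam.tendsto_gam 0).const_sub (radial 0)
  rwa [sub_self] at h

/-- The place of `x` in the scale of the chi law of degree `k`. -/
noncomputable def chiLevel (k : ℕ) (x : ℝ) : ℝ :=
  radial k * (radial 0 + gam 0 x) / (2 * radial 0)

theorem chiLevel_mem (k : ℕ) (x : ℝ) : chiLevel k x ∈ Ioo 0 (radial k) := by
  have h := gam_zero_mem x
  have h0 := radial_pos 0
  have hk := radial_pos k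
  refine ⟨div_pos (mul_pos hk (by linarith [h.1])) (by positivity), ?_⟩
  rw [chiLevel, div_lt_iff₀ (by positivity)]
  nlinarith [h.2]

/-- The increasing map of the Gaussian law to the chi law of degree `k`. -/
noncomputable def chiMap (k : ℕ) (x : ℝ) : ℝ := invGam k (chiLevel k x)

/-- The derivative of `chiMap`. -/
noncomputable def chiSpeed (k : ℕ) (x : ℝ) : ℝ :=
  radial k * wt 0 x / (2 * radial 0) / wt k (chiMap k x)

theorem chiMap_pos (k : ℕ) (x : ℝ) : 0 < chiMap k x := invGam_mem k (chiLevel_mem k x)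

theorem hasDerivAt_chiMap (k : ℕ) (x : ℝ) : HasDerivAt (chiMap k) (chiSpeed k x) x := by
  have h1 : HasDerivAt (chiLevel k) (radial k * wt 0 x / (2 * radial 0)) x :=
    (((hasDerivAt_gam 0 x).const_add (radial 0)).const_mul (radial k)).div_const _
  refine ((hasDerivAt_invGam k (chiLevel_mem k x)).comp x h1).congr_deriv ?_
  rw [chiSpeed, chiMap, inv_mul_eq_div]

theorem chiSpeed_pos (k : ℕ) (x : ℝ) : 0 < chiSpeed k x :=
  div_pos (div_pos (mul_pos (radial_pos k) (wt_zero_pos x)) (by linarith [radial_pos 0]))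
    (wt_pos k (chiMap_pos k x))

theorem continuous_chiMap (k : ℕ) : Continuous (chiMap k) :=
  continuous_iff_continuousAt.2 fun x => (hasDerivAt_chiMap k x).continuousAt

theorem continuous_chiSpeed (k : ℕ) : Continuous (chiSpeed k) :=
  ((continuous_const.mul (Stam.continuous_wt 0)).div_const _).div
    ((Stam.continuous_wt k).comp (continuous_chiMap k)) fun x => (wt_pos k (chiMap_pos k x)).ne'

theorem strictMono_chiMap (k : ℕ) : StrictMono (chiMap k) :=
  strictMono_of_deriv_pos fun x => by rw [(hasDerivAt_chiMap k x).deriv]; exact chiSpeed_pos k x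

theorem image_chiMap (k : ℕ) : chiMap k '' univ = Ioi 0 := by
  refine Subset.antisymm (image_subset_iff.2 fun x _ => chiMap_pos k x) fun w hw => ?_
  have hc : Continuous fun x => radial 0 + gam 0 x :=
    continuous_const.add (Stam.continuous_gam 0)
  have hr := radial_pos 0
  have hk := radial_pos k
  have hm := gam_mem k (mem_Ioi.1 hw)
  set v := gam k w / radial k * (2 * radial 0) with hv
  have hv1 : 0 < v := mul_pos (div_pos hm.1 hk) (by positivity)
  have hv2 : v < 2 * radial 0 :=
    mul_lt_of_lt_one_left (by positivity) ((div_lt_one hk).2 hm.2)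
  have htop : Tendsto (fun x => radial 0 + gam 0 x) atTop (𝓝 (2 * radial 0)) := by
    have h := (Stam.tendsto_gam 0).const_add (radial 0)
    rwa [← two_mul] at h
  have hbot : Tendsto (fun x => radial 0 + gam 0 x) atBot (𝓝 0) := by
    have h := ((Stam.tendsto_gam 0).comp tendsto_neg_atBot_atTop).neg.const_add (radial 0)
    rw [add_neg_cancel] at h
    refine h.congr fun x => ?_
    simp [gam_zero_neg]
  obtain ⟨b, hb⟩ := (htop.eventually_const_lt hv2).exists
  obtain ⟨a, ha⟩ := (hbot.eventually_lt_const hv1).exists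
  have hab : a ≤ b := by
    by_contra h
    rw [not_le] at h
    have hmono : StrictMono (gam 0) := strictMono_of_deriv_pos fun x => by
      rw [(hasDerivAt_gam 0 x).deriv]; exact wt_zero_pos x
    linarith [hmono h]
  obtain ⟨x, -, hx⟩ := intermediate_value_Icc hab hc.continuousOn ⟨ha.le, hb.le⟩
  refine ⟨x, mem_univ x, ?_⟩
  have e : chiLevel k x = gam k w := by
    simp only at hx
    rw [chiLevel, hx, hv]
    field_simp
  rw [chiMap, e, invGam_gam k (mem_Ioi.1 hw)]

/-- The map is a contraction. -/
theorem chiSpeed_le_one (k : ℕ) (x : ℝ) : chiSpeed k x ≤ 1 := by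
  set c := radial k / (2 * radial 0) with hcdef
  have hc : 0 < c := div_pos (radial_pos k) (by linarith [radial_pos 0])
  set T := chiMap k with hT
  set D : ℝ → ℝ := fun x => wt k (T x) - c * wt 0 x with hD
  have hspeed : ∀ x, chiSpeed k x = c * wt 0 x / wt k (T x) := fun x => by
    rw [chiSpeed, hcdef, hT]; ring
  rw [hspeed, div_le_one (wt_pos k (chiMap_pos k x)), ← sub_nonneg]
  change 0 ≤ D x
  set H : ℝ → ℝ := fun x => (k : ℝ) / T x - T x + x with hH
  have hTd : ∀ x, HasDerivAt T (c * wt 0 x / wt k (T x)) x := fun x =>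
    hspeed x ▸ hasDerivAt_chiMap k x
  have hDd : ∀ x, HasDerivAt D (c * wt 0 x * H x) x := fun x => by
    have hp := chiMap_pos k x
    have hw := (wt_pos k hp).ne'
    refine (((hasDerivAt_wt k hp).comp x (hTd x)).sub
      (((hasDerivAt_pow 2 x).neg.div_const 2).exp.const_mul c |>.congr_of_eventuallyEq
        (Eventually.of_forall fun z => by simp [wt_zero]))).congr_deriv ?_
    simp only [hH, wt_zero, hT, Pi.neg_apply]
    have := hp.ne'
    field_simp
    push_cast
    ring
  have hDc : Continuous D := continuous_iff_continuousAt.2 fun x => (hDd x).continuousAt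
  by_contra hneg
  rw [not_le] at hneg
  have hlim : ∀ᶠ z in cocompact ℝ, D x ≤ D z := by
    have h0 : Tendsto (fun z : ℝ => c * wt 0 z) (cocompact ℝ) (𝓝 0) := by
      simp only [wt_zero]
      rw [show (0 : ℝ) = c * 0 by ring]
      refine (Real.tendsto_exp_atBot.comp ?_).const_mul c
      have h2 : Tendsto (fun z : ℝ => z ^ 2) (cocompact ℝ) atTop := by
        have := (tendsto_pow_atTop two_ne_zero).comp (tendsto_norm_cocompact_atTop (E := ℝ))
        exact this.congr fun z => by simp
      exact (tendsto_neg_atTop_atBot.comp h2).atBot_div_const two_pos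
    filter_upwards [h0.eventually_lt_const (show (0 : ℝ) < -D x by linarith)] with z hz
    have := wt_pos k (chiMap_pos k z)
    simp only [hD, hT] at hz ⊢
    linarith
  obtain ⟨x₁, hx₁⟩ := hDc.exists_forall_le' x hlim
  have hD1 : D x₁ < 0 := (hx₁ x).trans_lt hneg
  have hH1 : H x₁ = 0 := by
    have := IsLocalMin.hasDerivAt_eq_zero (Eventually.of_forall hx₁) (hDd x₁)
    exact (mul_eq_zero.1 this).resolve_left (mul_pos hc (wt_zero_pos x₁)).ne'
  have hp := chiMap_pos k x₁
  have hs1 : 1 < c * wt 0 x₁ / wt k (T x₁) := by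
    rw [one_lt_div (wt_pos k hp)]
    simp only [hD] at hD1
    linarith
  set s := c * wt 0 x₁ / wt k (T x₁) with hs
  have hHd : HasDerivAt H (-((k : ℝ) / T x₁ ^ 2 + 1) * s + 1) x₁ := by
    refine ((((hasDerivAt_const x₁ (k : ℝ)).div (hTd x₁) hp.ne').sub (hTd x₁)).add
      (hasDerivAt_id x₁)).congr_deriv ?_
    have := hp.ne'
    simp only [hT]
    field_simp
    ring
  have hneg' : -((k : ℝ) / T x₁ ^ 2 + 1) * s + 1 < 0 := by
    have : 0 ≤ (k : ℝ) / T x₁ ^ 2 * s := by
      have : 0 < s := by linarith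
      positivity
    nlinarith
  have hev : ∀ᶠ z in 𝓝[>] x₁, H z < 0 := by
    have h := (hasDerivAt_iff_tendsto_slope.1 hHd).mono_left
      (nhdsWithin_mono x₁ fun z (hz : x₁ < z) => ne_of_gt hz)
    filter_upwards [h.eventually_lt_const hneg', self_mem_nhdsWithin] with z hz hz'
    have hz0 : 0 < z - x₁ := sub_pos.2 hz'
    rw [slope_def_field, hH1, sub_zero, div_lt_iff₀ hz0, zero_mul] at hz
    exact hz
  obtain ⟨u, hu, hsub⟩ := mem_nhdsGT_iff_exists_Ioo_subset.1 hev
  have hu' : x₁ < (x₁ + u) / 2 := by linarith [mem_Ioi.1 hu]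
  have hanti : StrictAntiOn D (Icc x₁ ((x₁ + u) / 2)) :=
    strictAntiOn_of_deriv_neg (convex_Icc _ _) hDc.continuousOn fun z hz => by
      rw [interior_Icc] at hz
      rw [(hDd z).deriv]
      exact mul_neg_of_pos_of_neg (mul_pos hc (wt_zero_pos z))
        (hsub ⟨hz.1, hz.2.trans (by linarith [mem_Ioi.1 hu])⟩)
  exact (hx₁ _).not_gt (hanti (left_mem_Icc.2 hu'.le) (right_mem_Icc.2 hu'.le) hu')

end Vale.Agent.P237.Petty.Lift.Star
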