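import Vale.Agent.P237.Petty.Lift.Star.Chi
import Vale.Agent.P237.Petty.Lift.Kernel

/-!
# P237: the level curve of the lift in the chi variable

At the height `y` the level curve of `R t` is the graph of `G = R σ (y / R)` over
`w = R arc (σ (y / R))`, and `w` is the image of the Gaussian line by the contraction `chiMap`.
-/

namespace Vale.Agent.P237.Petty.Lift.Star

open MeasureTheory Set Filter Topology
open Ident (half rate)
open Stam (wt wt_pos)

variable {p : ℕ} {g σ : ℝ → ℝ} {y : ℝ}

/-- The radius of the point of the curve above `w`. -/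
noncomputable def curveR (σ : ℝ → ℝ) (y w : ℝ) : ℝ := Function.invFunOn (liftW σ y) (Ioi y) w

/-- The derivative of the height of the curve in the radius. -/
noncomputable def curveSlope (p : ℕ) (g σ : ℝ → ℝ) (y R : ℝ) : ℝ :=
  σ (y / R) - rate p g σ (y / R) * (y / R)

/-- The height of the curve over the Gaussian line. -/
noncomputable def curveG (p : ℕ) (σ : ℝ → ℝ) (y x : ℝ) : ℝ :=
  curveR σ y (chiMap (p + 2) x) * σ (y / curveR σ y (chiMap (p + 2) x))

/-- The derivative of the radius along the Gaussian line. -/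
noncomputable def curveRx (p : ℕ) (g σ : ℝ → ℝ) (y x : ℝ) : ℝ :=
  chiSpeed (p + 2) x / liftW' p g σ y (curveR σ y (chiMap (p + 2) x))

/-- The derivative of the height along the Gaussian line. -/
noncomputable def curveG' (p : ℕ) (g σ : ℝ → ℝ) (y x : ℝ) : ℝ :=
  curveSlope p g σ y (curveR σ y (chiMap (p + 2) x)) * curveRx p g σ y x

/-- The integrand of the mean gradient, times the mass. -/
noncomputable def starA (p : ℕ) (g σ : ℝ → ℝ) (t : ℝ) : ℝ :=
  √(t ^ 2 * (g t ^ (p + 1)) ^ 2 + (arc (σ t) ^ (p + 2)) ^ 2)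

theorem starA_nonneg (t : ℝ) : 0 ≤ starA p g σ t := Real.sqrt_nonneg _

theorem tail_eq_integral (a : ℝ) :
    IntegrableOn (wt 0) (Ioi a) ∧ ∫ u in Ioi a, wt 0 u = tail a := by
  have hi : Integrable (wt 0) := by
    have h := integrable_exp_neg_mul_sq (show (0 : ℝ) < 1 / 2 by norm_num)
    refine h.congr (Eventually.of_forall fun x => ?_)
    rw [wt_zero]
    ring_nf
  refine ⟨hi.integrableOn, ?_⟩
  have h := integral_Ioi_of_hasDerivAt_of_tendsto' (f := fun u => -tail u) (f' := wt 0) (a := a)
    (fun u _ => (hasDerivAt_tail u).neg.congr_deriv (neg_neg _)) hi.integrableOn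
    (by simpa using tendsto_tail_atTop.neg)
  rw [h]; ring

theorem tail_nonneg (a : ℝ) : 0 ≤ tail a := by
  rw [← (tail_eq_integral a).2]
  exact setIntegral_nonneg measurableSet_Ioi fun u _ => (wt_zero_pos u).le

theorem tail_le (a : ℝ) : tail a ≤ 2 * radial 0 := by
  have := (gam_zero_mem a).1
  rw [tail]
  linarith

section

variable (hg : Regular g) (hσ : Transport p g σ) (hy : 0 < y)
include hg hσ hy

theorem strictMonoOn_liftW : StrictMonoOn (liftW σ y) (Ioi y) :=
  strictMonoOn_of_deriv_pos (convex_Ioi y)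
    (fun R hR => (hasDerivAt_liftW hg hσ hy hR).continuousAt.continuousWithinAt) fun R hR => by
    rw [interior_Ioi] at hR
    rw [(hasDerivAt_liftW hg hσ hy hR).deriv]
    exact liftW'_pos hg hσ hy hR

theorem exists_liftW_eq {w : ℝ} (hw : 0 < w) : ∃ R ∈ Ioi y, liftW σ y R = w := by
  obtain ⟨a, ha, hay⟩ := (((tendsto_liftW_left hσ hy).eventually_lt_const hw).and
    self_mem_nhdsWithin).exists
  obtain ⟨b, hb, hba⟩ := (((tendsto_liftW_top hσ hy).eventually_gt_atTop w).and
    (eventually_gt_atTop a)).exists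
  obtain ⟨R, hR, hRw⟩ := intermediate_value_Icc hba.le
    (fun R hR => (hasDerivAt_liftW hg hσ hy
      ((mem_Ioi.1 hay).trans_le hR.1)).continuousAt.continuousWithinAt) ⟨ha.le, hb.le⟩
  exact ⟨R, (mem_Ioi.1 hay).trans_le hR.1, hRw⟩

theorem curveR_mem {w : ℝ} (hw : 0 < w) : y < curveR σ y w :=
  Function.invFunOn_mem (exists_liftW_eq hg hσ hy hw)

theorem liftW_curveR {w : ℝ} (hw : 0 < w) : liftW σ y (curveR σ y w) = w :=
  Function.invFunOn_eq (exists_liftW_eq hg hσ hy hw)

theorem curveR_liftW {R : ℝ} (hR : y < R) : curveR σ y (liftW σ y R) = R :=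
  (strictMonoOn_liftW hg hσ hy).injOn (curveR_mem hg hσ hy (liftW_pos hσ hy hR)) hR
    (liftW_curveR hg hσ hy (liftW_pos hσ hy hR))

theorem hasDerivAt_curveR {w : ℝ} (hw : 0 < w) :
    HasDerivAt (curveR σ y) (liftW' p g σ y (curveR σ y w))⁻¹ w := by
  have hm : StrictMonoOn (curveR σ y) (Ioi 0) := fun a ha b hb hab => by
    rw [← (strictMonoOn_liftW hg hσ hy).lt_iff_lt (curveR_mem hg hσ hy ha)
      (curveR_mem hg hσ hy hb), liftW_curveR hg hσ hy ha, liftW_curveR hg hσ hy hb]
    exact hab
  have himg : curveR σ y '' Ioi 0 = Ioi y :=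
    Subset.antisymm (image_subset_iff.2 fun w hw => curveR_mem hg hσ hy hw)
      fun R hR => ⟨_, liftW_pos hσ hy hR, curveR_liftW hg hσ hy hR⟩
  refine HasDerivAt.of_local_left_inverse (hm.continuousAt_of_image_mem_nhds (Ioi_mem_nhds hw) ?_)
    (hasDerivAt_liftW hg hσ hy (curveR_mem hg hσ hy hw))
    (liftW'_pos hg hσ hy (curveR_mem hg hσ hy hw)).ne' ?_
  · rw [himg]; exact Ioi_mem_nhds (curveR_mem hg hσ hy hw)
  · filter_upwards [Ioi_mem_nhds hw] with z hz using liftW_curveR hg hσ hy hz

theorem hasDerivAt_curveRx (x : ℝ) :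
    HasDerivAt (fun x => curveR σ y (chiMap (p + 2) x)) (curveRx p g σ y x) x :=
  ((hasDerivAt_curveR hg hσ hy (chiMap_pos _ x)).comp x (hasDerivAt_chiMap _ x)).congr_deriv
    (by rw [curveRx, inv_mul_eq_div])

theorem curveRx_pos (x : ℝ) : 0 < curveRx p g σ y x :=
  div_pos (chiSpeed_pos _ x) (liftW'_pos hg hσ hy (curveR_mem hg hσ hy (chiMap_pos _ x)))

theorem image_curveR_chiMap : (fun x => curveR σ y (chiMap (p + 2) x)) '' univ = Ioi y := by
  refine Subset.antisymm (image_subset_iff.2 fun x _ => curveR_mem hg hσ hy (chiMap_pos _ x))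
    fun R hR => ?_
  obtain ⟨x, -, hx⟩ := (image_chiMap (p + 2)).ge (liftW_pos hσ hy hR)
  exact ⟨x, mem_univ x, by show curveR σ y _ = R; rw [hx, curveR_liftW hg hσ hy hR]⟩

theorem monotone_curveR_chiMap : Monotone fun x => curveR σ y (chiMap (p + 2) x) :=
  monotone_of_hasDerivAt_nonneg (hasDerivAt_curveRx hg hσ hy) fun x => (curveRx_pos hg hσ hy x).le

omit hg in
theorem hasDerivAt_height {R : ℝ} (hR : y < R) :
    HasDerivAt (fun R => R * σ (y / R)) (curveSlope p g σ y R) R :=
  ((hasDerivAt_id' R).mul (hasDerivAt_sigma_div hσ hy hR)).congr_deriv (by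
    have := (hy.trans hR).ne'
    rw [curveSlope]
    field_simp
    ring)

theorem hasDerivAt_curveG (x : ℝ) :
    HasDerivAt (curveG p σ y) (curveG' p g σ y x) x :=
  HasDerivAt.comp (h₂ := fun R => R * σ (y / R)) (h := fun x => curveR σ y (chiMap (p + 2) x)) x
    (hasDerivAt_height hσ hy (curveR_mem hg hσ hy (chiMap_pos _ x)))
    (hasDerivAt_curveRx hg hσ hy x)

theorem continuous_curveG' : Continuous (curveG' p g σ y) := by
  have hR : Continuous fun x => curveR σ y (chiMap (p + 2) x) :=
    continuous_iff_continuousAt.2 fun x => (hasDerivAt_curveRx hg hσ hy x).continuousAt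
  have hmem : ∀ x, y < curveR σ y (chiMap (p + 2) x) := fun x =>
    curveR_mem hg hσ hy (chiMap_pos _ x)
  have ht : Continuous fun x => y / curveR σ y (chiMap (p + 2) x) :=
    continuous_const.div hR fun x => (hy.trans (hmem x)).ne'
  have htm : ∀ x, y / curveR σ y (chiMap (p + 2) x) ∈ Ioo (0 : ℝ) 1 := fun x =>
    div_mem_Ioo hy (hmem x)
  have hs := hσ.cont.comp_continuous ht fun x => Ioo_subset_Icc_self (htm x)
  have hr := (continuousOn_rate hg hσ).comp_continuous ht htm
  have hM := (continuousOn_mFun hg hσ).comp_continuous ht htm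
  have ha : Continuous fun x => arc (σ (y / curveR σ y (chiMap (p + 2) x))) :=
    continuous_arc.comp hs
  have hW : Continuous fun x => liftW' p g σ y (curveR σ y (chiMap (p + 2) x)) :=
    (hr.mul hM).div ha fun x => by
      have h := hσ.mem_Ioo _ (htm x)
      exact (arc_pos ⟨by linarith [h.1], h.2⟩).ne'
  exact (hs.sub (hr.mul ht)).mul ((continuous_chiSpeed _).div hW fun x =>
    (liftW'_pos hg hσ hy (hmem x)).ne')

/-- The length element of the curve against the mean gradient. -/
theorem length_element {R : ℝ} (hR : y < R) :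
    wt 0 (R * σ (y / R)) * wt (p + 2) (liftW σ y R) *
        √(liftW' p g σ y R ^ 2 + curveSlope p g σ y R ^ 2) =
      wt (p + 2) R * starA p g σ (y / R) := by
  have ht := div_mem_Ioo hy hR
  have hs := hσ.mem_Ioo _ ht
  have hc : 0 < arc (σ (y / R)) := arc_pos ⟨by linarith [hs.1], hs.2⟩
  have hc2 := arc_sq (Ioo_subset_Icc_self hs)
  have hgp := pow_pos (hg.pos_of_lt ⟨ht.1.le, ht.2⟩) (p + 1)
  have hr := rate_pos hg hσ ht
  have e : g (y / R) ^ (p + 1) = rate p g σ (y / R) * arc (σ (y / R)) ^ (p + 1) :=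
    (div_mul_cancel₀ _ (pow_ne_zero _ hc.ne')).symm
  have hsq : liftW' p g σ y R ^ 2 + curveSlope p g σ y R ^ 2 =
      (arc (σ (y / R)) ^ 2 + (rate p g σ (y / R) * (y / R)) ^ 2) / arc (σ (y / R)) ^ 2 := by
    rw [liftW', mFun, liftM, curveSlope, ← hc2]
    generalize hc' : arc (σ (y / R)) = c at hc hc2 ⊢
    generalize rate p g σ (y / R) = r at hr ⊢
    generalize σ (y / R) = s at hc2 ⊢
    generalize y / R = t
    field_simp
    linear_combination (c ^ 2 + r ^ 2 * t ^ 2) * hc2
  rw [hsq, Real.sqrt_div (by positivity), Real.sqrt_sq hc.le, starA, e,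
    show (y / R) ^ 2 * (rate p g σ (y / R) * arc (σ (y / R)) ^ (p + 1)) ^ 2 +
        (arc (σ (y / R)) ^ (p + 2)) ^ 2 =
      (arc (σ (y / R)) ^ (p + 1)) ^ 2 *
        (arc (σ (y / R)) ^ 2 + (rate p g σ (y / R) * (y / R)) ^ 2) by ring,
    Real.sqrt_mul (sq_nonneg _), Real.sqrt_sq (pow_nonneg hc.le _)]
  have hexp : wt 0 (R * σ (y / R)) * Real.exp (-((R * arc (σ (y / R))) ^ 2) / 2) =
      Real.exp (-(R ^ 2) / 2) := by
    rw [wt_zero, ← Real.exp_add]
    congr 1
    linear_combination (-(R ^ 2) / 2) * hc2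
  rw [show wt (p + 2) (liftW σ y R) = (R * arc (σ (y / R))) ^ (p + 2) *
      Real.exp (-((R * arc (σ (y / R))) ^ 2) / 2) from rfl,
    show wt (p + 2) R = R ^ (p + 2) * Real.exp (-(R ^ 2) / 2) from rfl, ← hexp, mul_pow,
    pow_succ (arc _) (p + 1)]
  field_simp

end

/-- The integrand of the mean gradient is continuous and bounded. -/
theorem continuousOn_starA (hg : Regular g) (hσ : Transport p g σ) :
    ContinuousOn (starA p g σ) (Icc 0 1) :=
  (((continuousOn_id.pow 2).mul (((continuousOn_profile hg).pow _).pow 2)).add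
    (((continuous_arc.comp_continuousOn hσ.cont).pow _).pow 2)).sqrt

theorem integrableOn_lengthRow (hg : Regular g) (hσ : Transport p g σ) (hy : 0 < y) :
    IntegrableOn (fun R => wt (p + 2) R * starA p g σ (y / R)) (Ioi y) := by
  obtain ⟨C, hC⟩ := isCompact_Icc.exists_bound_of_continuousOn (continuousOn_starA hg hσ)
  refine Integrable.mono' (((Stam.integrableOn_wt (p + 2)).mono_set
    (Ioi_subset_Ioi hy.le)).mul_const C) ?_ ?_
  · refine ContinuousOn.aestronglyMeasurable ?_ measurableSet_Ioi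
    exact (Stam.continuous_wt _).continuousOn.mul ((continuousOn_starA hg hσ).comp
      (continuousOn_const.div continuousOn_id fun R hR => (hy.trans hR).ne')
      fun R hR => Ioo_subset_Icc_self (div_mem_Ioo hy hR))
  · filter_upwards [ae_restrict_mem measurableSet_Ioi] with R hR
    have hw := wt_pos (p + 2) (hy.trans hR)
    rw [norm_mul, Real.norm_of_nonneg hw.le]
    exact mul_le_mul_of_nonneg_left (hC _ (Ioo_subset_Icc_self (div_mem_Ioo hy hR))) hw.le

/-- The isoperimetric inequality on the curve. -/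
theorem section_le (hB : GaussBobkov) (hg : Regular g) (hσ : Transport p g σ) (hy : 0 < y) {τ : ℝ}
    (hτ : (∫ w in Ioi (0 : ℝ), wt (p + 2) w * tail (curveR σ y w * σ (y / curveR σ y w))) /
      radial (p + 2) = tail τ) :
    radial (p + 2) * wt 0 τ ≤ ∫ R in Ioi y, wt (p + 2) R * starA p g σ (y / R) := by
  have hrk := radial_pos (p + 2)
  have hr0 := radial_pos 0
  set φ := fun x => curveR σ y (chiMap (p + 2) x) with hφ
  have hmem : ∀ x, y < φ x := fun x => curveR_mem hg hσ hy (chiMap_pos _ x)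
  have hWφ : ∀ x, liftW σ y (φ x) = chiMap (p + 2) x := fun x =>
    liftW_curveR hg hσ hy (chiMap_pos _ x)
  have hd : ∀ x ∈ (univ : Set ℝ), HasDerivWithinAt φ (curveRx p g σ y x) univ x :=
    fun x _ => (hasDerivAt_curveRx hg hσ hy x).hasDerivWithinAt
  have hmono : MonotoneOn φ univ := (monotone_curveR_chiMap hg hσ hy).monotoneOn _
  have himg : φ '' univ = Ioi y := image_curveR_chiMap hg hσ hy
  set A : ℝ → ℝ := fun R => wt (p + 2) R * starA p g σ (y / R) with hA
  have hAi : IntegrableOn A (φ '' univ) := himg ▸ integrableOn_lengthRow hg hσ hy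
  have hK := (integrableOn_image_iff_integrableOn_deriv_smul_of_monotoneOn MeasurableSet.univ hd
    hmono A).1 hAi
  rw [integrableOn_univ] at hK
  have hKe : ∫ x, curveRx p g σ y x • A (φ x) = ∫ R in Ioi y, A R := by
    rw [← setIntegral_univ, ← integral_image_eq_integral_deriv_smul_of_monotoneOn
      MeasurableSet.univ hd hmono A, himg]
  set L := fun x => wt 0 (curveG p σ y x) * √(1 + curveG' p g σ y x ^ 2) * wt 0 x with hL
  have hle : ∀ x, L x ≤ 2 * radial 0 / radial (p + 2) * (curveRx p g σ y x • A (φ x)) := by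
    intro x
    have hw' := liftW'_pos hg hσ hy (hmem x)
    have hl := length_element hg hσ hy (hmem x)
    have hwt := (wt_pos (p + 2) (chiMap_pos (p + 2) x))
    have hT1 := chiSpeed_le_one (p + 2) x
    have hT0 := chiSpeed_pos (p + 2) x
    set W := liftW' p g σ y (φ x) with hW
    set S := curveSlope p g σ y (φ x) with hS
    have hsq : √(1 + curveG' p g σ y x ^ 2) ≤ √(W ^ 2 + S ^ 2) / W := by
      rw [← Real.sqrt_sq hw'.le, ← Real.sqrt_div (by positivity), Real.sqrt_sq hw'.le]
      refine Real.sqrt_le_sqrt ?_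
      rw [show curveG' p g σ y x = S * (chiSpeed (p + 2) x / W) from rfl, mul_pow, div_pow, add_div,
        div_self (pow_ne_zero 2 hw'.ne'), ← mul_div_assoc]
      gcongr
      exact mul_le_of_le_one_right (sq_nonneg S) (pow_le_one₀ hT0.le hT1)
    calc L x ≤ wt 0 (φ x * σ (y / φ x)) * (√(W ^ 2 + S ^ 2) / W) * wt 0 x :=
          mul_le_mul_of_nonneg_right (mul_le_mul_of_nonneg_left hsq (wt_zero_pos _).le)
            (wt_zero_pos x).le
      _ = _ := by
          simp only [smul_eq_mul, hA]
          rw [← hl, hWφ x, show curveRx p g σ y x = chiSpeed (p + 2) x / W from rfl, chiSpeed]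
          field_simp
  have hGc : Continuous (curveG p σ y) :=
    continuous_iff_continuousAt.2 fun x => (hasDerivAt_curveG hg hσ hy x).continuousAt
  have hLc : Continuous L :=
    (((Stam.continuous_wt 0).comp hGc).mul
      (((continuous_curveG' hg hσ hy).pow 2).const_add 1).sqrt).mul (Stam.continuous_wt 0)
  have hLi : Integrable L := (hK.const_mul (2 * radial 0 / radial (p + 2))).mono'
    hLc.aestronglyMeasurable (Eventually.of_forall fun x => by
      rw [Real.norm_of_nonneg (mul_nonneg (mul_nonneg (wt_zero_pos _).le (Real.sqrt_nonneg _))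
        (wt_zero_pos x).le)]
      exact hle x)
  have htail : (∫ x, tail (curveG p σ y x) * wt 0 x) / (2 * radial 0) = tail τ := by
    rw [← hτ]
    have hd' : ∀ x ∈ (univ : Set ℝ), HasDerivWithinAt (chiMap (p + 2)) (chiSpeed (p + 2) x) univ x :=
      fun x _ => (hasDerivAt_chiMap (p + 2) x).hasDerivWithinAt
    have h := integral_image_eq_integral_deriv_smul_of_monotoneOn MeasurableSet.univ hd'
      ((strictMono_chiMap (p + 2)).monotone.monotoneOn _)
      (fun w => wt (p + 2) w * tail (curveR σ y w * σ (y / curveR σ y w)))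
    rw [image_chiMap, setIntegral_univ] at h
    rw [h, ← integral_div, ← integral_div]
    refine integral_congr_ae (Eventually.of_forall fun x => ?_)
    have := (wt_pos (p + 2) (chiMap_pos (p + 2) x)).ne'
    simp only [smul_eq_mul, chiSpeed, curveG]
    field_simp
  have h := hB _ _ τ (hasDerivAt_curveG hg hσ hy) (continuous_curveG' hg hσ hy) hLi htail
  have h2 : ∫ x, L x ≤ 2 * radial 0 / radial (p + 2) * ∫ R in Ioi y, A R := by
    rw [← hKe, ← integral_const_mul]
    exact integral_mono hLi (hK.const_mul _) hle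
  have h3 : wt 0 τ ≤ 2 * radial 0 / radial (p + 2) * (∫ R in Ioi y, A R) / (2 * radial 0) :=
    h.trans (div_le_div_of_nonneg_right h2 (by positivity))
  calc radial (p + 2) * wt 0 τ
      ≤ radial (p + 2) * (2 * radial 0 / radial (p + 2) * (∫ R in Ioi y, A R) / (2 * radial 0)) :=
        mul_le_mul_of_nonneg_left h3 hrk.le
    _ = _ := by field_simp

end Vale.Agent.P237.Petty.Lift.Star
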