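import Vale.Agent.P237.Petty.Stam.Section

/-!
# P237: the isoperimetric input of the entropy bound by the mean gradient

For a graph `G` over the Gaussian line the Gaussian measure above the graph and the Gaussian
length of the graph satisfy the isoperimetric inequality of Bobkov.
-/

namespace Vale.Agent.P237.Petty.Lift.Star

open MeasureTheory Set

/-- The Gaussian tail, not normalised. -/
noncomputable def tail (x : ℝ) : ℝ := radial 0 - Stam.gam 0 x

/-- Bobkov's inequality on the line, written for `u = tail (G ·)`. -/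
def GaussBobkov : Prop :=
  ∀ (G G' : ℝ → ℝ) (τ : ℝ), (∀ x, HasDerivAt G (G' x) x) → Continuous G' →
    Integrable (fun x => Stam.wt 0 (G x) * √(1 + G' x ^ 2) * Stam.wt 0 x) →
    (∫ x, tail (G x) * Stam.wt 0 x) / (2 * radial 0) = tail τ →
    Stam.wt 0 τ ≤ (∫ x, Stam.wt 0 (G x) * √(1 + G' x ^ 2) * Stam.wt 0 x) / (2 * radial 0)

end Vale.Agent.P237.Petty.Lift.Star
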