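import Vale.Agent.P237.Petty.Lift.Star.Mass

/-!
# P237: the entropy of the lift against the mean gradient

The entropy of the lift exceeds the Gaussian one by at most the logarithm of the mean gradient of
`R t` over the Gaussian space, in the linearised and weighted form
`E (w |∇| / lam) - 1 + log lam - E log w` with `w = 1 / (1 + β y ^ 2)`.
-/

namespace Vale.Agent.P237.Petty.Lift.Star

open MeasureTheory Set Filter Topology
open Ident (half rate)
open Stam (wt wt_pos gam invGam gam_mem hasDerivAt_gam hasDerivAt_invGam invGam_mem invGam_gam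
  gam_invGam)

variable {p : ℕ} {g σ : ℝ → ℝ}

/-- The mean of the weight over the radius. -/
noncomputable def starWt (p : ℕ) (β t : ℝ) : ℝ :=
  (∫ R in Ioi (0 : ℝ), wt (p + 3) R / (1 + β * (R * t) ^ 2)) / radial (p + 3)

/-- The entropy integrand per unit of mass. -/
noncomputable def starE (p : ℕ) (β lam s t r : ℝ) : ℝ :=
  √(t ^ 2 + (1 - s ^ 2) / r ^ 2) * starWt p β t / lam - 1 + Real.log lam +
    Real.log (1 + β * ((p : ℝ) + 4) * t ^ 2)

theorem radial_zero : radial 0 = √(2 * Real.pi) / 2 := by
  have h := integral_gaussian_Ioi (1 / 2)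
  rw [show Real.pi / (1 / 2) = 2 * Real.pi by ring] at h
  rw [← h, radial]
  refine setIntegral_congr_fun measurableSet_Ioi fun x _ => ?_
  simp only [pow_zero, one_mul]
  ring_nf

theorem radial_mul_half (p : ℕ) :
    radial (p + 3) * half (p + 1) = radial 0 * radial (p + 2) := by
  have h := Stam.radial_circ p
  rw [Ident.circ_eq_half] at h
  rw [radial_zero, show radial (p + 2) = ((p : ℝ) + 1) * radial p from radial_step p]
  linarith

theorem starA_eq (hg : Regular g) (hσ : Transport p g σ) {t : ℝ} (ht : t ∈ Ioo (0 : ℝ) 1) :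
    g t ^ (p + 1) * √(t ^ 2 + (1 - σ t ^ 2) / rate p g σ t ^ 2) = starA p g σ t := by
  have hs := hσ.mem_Ioo t ht
  have hc : 0 < arc (σ t) := arc_pos ⟨by linarith [hs.1], hs.2⟩
  have hG := pow_pos (hg.pos_of_lt ⟨ht.1.le, ht.2⟩) (p + 1)
  conv_lhs => arg 1; rw [← Real.sqrt_sq hG.le]
  rw [← Real.sqrt_mul (sq_nonneg _), starA, rate, ← arc_sq (Ioo_subset_Icc_self hs),
    pow_succ (arc (σ t)) (p + 1)]
  congr 1
  field_simp

/-- The entropy bound by the mean gradient. -/
theorem entropy_star (hB : GaussBobkov) (hg : Regular g) (hσ : Transport p g σ) {β lam : ℝ}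
    (hβ : 0 ≤ β) (hlam : 0 < lam) :
    IntervalIntegrable (fun t => g t ^ (p + 1) * starE p β lam (σ t) t (rate p g σ t)) volume 0 1 ∧
      entTerm p g (liftTest p g) ≤
        (∫ t in (0 : ℝ)..1, g t ^ (p + 1) * starE p β lam (σ t) t (rate p g σ t)) /
          half (p + 1) := by
  obtain ⟨-, hpos', hint, -, -, hZlog, hZint, hent⟩ := liftTest_spec (p := p) hg hσ
  set Z := liftDens p g with hZ
  set Z0 := radial (p + 3) * half (p + 1) with hZ0def
  have hr0 := radial_pos 0
  have hrk := radial_pos (p + 2)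
  have hr3 := radial_pos (p + 3)
  have hhalf := Ident.half_pos (p + 1)
  have hZ0 : 0 < Z0 := mul_pos hr3 hhalf
  have hid : Z0 = radial 0 * radial (p + 2) := radial_mul_half p
  have hZpos : ∀ y, 0 < Z y := liftDens_pos hg
  have hZc : Continuous Z := continuous_liftDens hg
  have iD : IntegrableOn Z (Ioi 0) :=
    ((hint.const_mul (radial (p + 3) * circ (p + 1))).congr (Eventually.of_forall fun y =>
      mul_div_cancel₀ _ (mul_pos (radial_pos _) (circ_pos _)).ne')).integrableOn
  -- the quantile
  set M : ℝ → ℝ := fun y => ∫ u in (0 : ℝ)..y, Z u with hM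
  have hMd : ∀ y, HasDerivAt M (Z y) y := fun y =>
    (hZc.integral_hasStrictDerivAt 0 y).hasDerivAt
  have hMsplit : ∀ y, 0 ≤ y → ∫ z in Ioi y, Z z = Z0 - M y := fun y hy => by
    have h := intervalIntegral.integral_Ioi_sub_Ioi iD hy
    rw [hZint] at h
    simp only [hM]
    linarith
  have hMmem : ∀ y, 0 < y → 0 < M y ∧ M y < Z0 := fun y hy => by
    refine ⟨intervalIntegral.intervalIntegral_pos_of_pos_on (hZc.intervalIntegrable _ _)
      (fun u _ => hZpos u) hy, ?_⟩
    have h1 : 0 < ∫ z in Ioi y, Z z := by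
      refine lt_of_lt_of_le (intervalIntegral.intervalIntegral_pos_of_pos_on
        (hZc.intervalIntegrable y (y + 1)) (fun u _ => hZpos u) (by linarith)) ?_
      rw [intervalIntegral.integral_of_le (by linarith)]
      exact setIntegral_mono_set (iD.mono_set (Ioi_subset_Ioi hy.le))
        (Eventually.of_forall fun u => (hZpos u).le) Ioc_subset_Ioi_self.eventuallyLE
    linarith [hMsplit y hy.le]
  set τ : ℝ → ℝ := fun y => invGam 0 (radial 0 * (M y / Z0)) with hτ
  have hPmem : ∀ y, 0 < y → radial 0 * (M y / Z0) ∈ Ioo 0 (radial 0) := fun y hy =>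
    ⟨mul_pos hr0 (div_pos (hMmem y hy).1 hZ0),
      mul_lt_of_lt_one_right hr0 ((div_lt_one hZ0).2 (hMmem y hy).2)⟩
  set τd : ℝ → ℝ := fun y => Z y / (radial (p + 2) * wt 0 (τ y)) with hτd'
  have hτd : ∀ y, 0 < y → HasDerivAt τ (τd y) y := fun y hy => by
    refine ((hasDerivAt_invGam 0 (hPmem y hy)).comp y
      (((hMd y).div_const Z0).const_mul (radial 0))).congr_deriv ?_
    have := (wt_zero_pos (τ y)).ne'
    simp only [hτd', hτ] at this ⊢
    rw [hid]
    field_simp
  have hτdpos : ∀ y, 0 < y → 0 < τd y := fun y _ =>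
    div_pos (hZpos y) (mul_pos hrk (wt_zero_pos _))
  have hτw : ∀ y ∈ Ioi (0 : ℝ), HasDerivWithinAt τ (τd y) (Ioi 0) y :=
    fun y hy => (hτd y hy).hasDerivWithinAt
  have hτmono : MonotoneOn τ (Ioi 0) := monotoneOn_of_deriv_nonneg (convex_Ioi 0)
    (fun y hy => (hτd y hy).continuousAt.continuousWithinAt)
    (fun y hy => by
      rw [interior_Ioi] at hy
      exact (hτd y hy).differentiableAt.differentiableWithinAt)
    fun y hy => by
      rw [interior_Ioi] at hy
      rw [(hτd y hy).deriv]
      exact (hτdpos y hy).le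
  have hMlim : Tendsto M atTop (𝓝 Z0) :=
    hZint ▸ intervalIntegral_tendsto_integral_Ioi 0 iD tendsto_id
  have himg : τ '' Ioi 0 = Ioi 0 := by
    refine Subset.antisymm (image_subset_iff.2 fun y hy => invGam_mem 0 (hPmem y hy)) fun x hx => ?_
    have hgm := gam_mem 0 (mem_Ioi.1 hx)
    set v := gam 0 x / radial 0 * Z0 with hv
    have hv1 : 0 < v := mul_pos (div_pos hgm.1 hr0) hZ0
    have hv2 : v < Z0 := mul_lt_of_lt_one_left hZ0 ((div_lt_one hr0).2 hgm.2)
    obtain ⟨X, hX, hX0⟩ := ((hMlim.eventually_const_lt hv2).and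
      (eventually_gt_atTop (0 : ℝ))).exists
    obtain ⟨z, hz, hMz⟩ := intermediate_value_Ioo hX0.le
      (continuous_iff_continuousAt.2 fun y => (hMd y).continuousAt).continuousOn
      (show v ∈ Ioo (M 0) (M X) from ⟨by simpa [hM] using hv1, hX⟩)
    refine ⟨z, hz.1, ?_⟩
    simp only [hτ]
    rw [hMz, hv, show radial 0 * (gam 0 x / radial 0 * Z0 / Z0) = gam 0 x by field_simp,
      invGam_gam 0 (mem_Ioi.1 hx)]
  have hsqe : ∀ y, 0 < y → Z y * τ y ^ 2 / 2 = radial (p + 2) / 2 * (τd y • wt 2 (τ y)) :=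
    fun y _ => by
      have := (wt_zero_pos (τ y)).ne'
      simp only [hτd', smul_eq_mul]
      rw [show wt 2 (τ y) = τ y ^ 2 * wt 0 (τ y) by simp [wt]]
      field_simp
  have isq : IntegrableOn (fun y => Z y * τ y ^ 2 / 2) (Ioi 0) := by
    have h := (integrableOn_image_iff_integrableOn_deriv_smul_of_monotoneOn measurableSet_Ioi hτw
      hτmono (wt 2)).1 (by rw [himg]; exact Stam.integrableOn_wt 2)
    exact IntegrableOn.congr_fun (Integrable.const_mul h (radial (p + 2) / 2))
      (fun y hy => (hsqe y hy).symm) measurableSet_Ioi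
  have esq : ∫ y in Ioi (0 : ℝ), Z y * τ y ^ 2 / 2 = Z0 / 2 := by
    rw [setIntegral_congr_fun measurableSet_Ioi hsqe, integral_const_mul,
      ← integral_image_eq_integral_deriv_smul_of_monotoneOn measurableSet_Ioi hτw hτmono, himg,
      Stam.integral_wt, show radial 2 = radial 0 by simpa using radial_step 0, hid]
    ring
  -- the two families over the radius
  set gc := clamp g with hgc
  set sc := clamp σ with hsc
  have mg : Measurable gc := measurable_clamp (continuousOn_profile hg)
  have ms : Measurable sc := measurable_clamp hσ.cont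
  set b := β * ((p : ℝ) + 4) with hbdef
  have hb : 0 ≤ b := by positivity
  set Ac : ℝ → ℝ := fun t => √(t ^ 2 * (gc t ^ (p + 1)) ^ 2 + (arc (sc t) ^ (p + 2)) ^ 2) with hAc
  have hAcv : ∀ t ∈ Ioo (0 : ℝ) 1, Ac t = starA p g σ t := fun t ht => by
    simp only [hAc, hgc, hsc, clamp_eq ht, starA]
  have hAcm : Measurable Ac :=
    (((measurable_id.pow_const 2).mul ((mg.pow_const _).pow_const 2)).add
      (((continuous_arc.measurable.comp ms).pow_const _).pow_const 2)).sqrt
  set F1 : ℝ → ℝ → ℝ := fun t R => wt (p + 2) R * Ac t / (1 + β * (R * t) ^ 2) with hF1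
  set A2 : ℝ → ℝ := fun t => gc t ^ (p + 1) *
    (Real.log (1 + b * t ^ 2) - b * t ^ 2 / (1 + b * t ^ 2)) with hA2
  set B2 : ℝ → ℝ := fun t => gc t ^ (p + 1) * (β * t ^ 2 / (1 + b * t ^ 2)) with hB2
  set F2 : ℝ → ℝ → ℝ := fun t R => wt (p + 2) R * (A2 t + B2 t * R ^ 2) with hF2
  have hwt3 : ∀ R, R * wt (p + 2) R = wt (p + 3) R := fun R => by simp only [wt]; ring
  have hF1m : Measurable (Function.uncurry F1) :=
    (((Stam.continuous_wt _).measurable.comp measurable_snd).mul (hAcm.comp measurable_fst)).div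
      ((((measurable_snd.mul measurable_fst).pow_const 2).const_mul β).const_add 1)
  have hF1i : Integrable (fun z : ℝ × ℝ => z.2 * F1 z.1 z.2) stateMeasure := by
    obtain ⟨C, hC⟩ := isCompact_Icc.exists_bound_of_continuousOn (continuousOn_starA hg hσ)
    have hbd : Integrable (fun z : ℝ × ℝ => C * wt (p + 3) z.2) stateMeasure :=
      Integrable.mul_prod (integrable_const C) (Stam.integrableOn_wt (p + 3))
    refine hbd.mono' (measurable_snd.mul hF1m).aestronglyMeasurable ?_
    rw [stateMeasure, Measure.prod_restrict]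
    filter_upwards [ae_restrict_mem (measurableSet_Ioo.prod measurableSet_Ioi)] with z hz
    have hR : 0 < z.2 := hz.2
    have hd : 1 ≤ 1 + β * (z.2 * z.1) ^ 2 := le_add_of_nonneg_right (by positivity)
    have hA0 : 0 ≤ Ac z.1 := Real.sqrt_nonneg _
    have h1 := hC z.1 (Ioo_subset_Icc_self hz.1)
    rw [Real.norm_of_nonneg (starA_nonneg _), ← hAcv _ hz.1] at h1
    have hw := (wt_pos (p + 3) hR).le
    simp only [hF1]
    rw [← mul_div_assoc, ← mul_assoc, hwt3, Real.norm_of_nonneg (by positivity), mul_comm C]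
    exact (div_le_self (mul_nonneg hw hA0) hd).trans (mul_le_mul_of_nonneg_left h1 hw)
  have hA2c : ∀ (u : ℝ → ℝ), Continuous u → IntervalIntegrable
      (fun t => g t ^ (p + 1) * u t) volume 0 1 := fun u hu =>
    (((continuousOn_profile hg).pow _).mul hu.continuousOn).intervalIntegrable_of_Icc zero_le_one
  have hden : ∀ t : ℝ, 1 + b * t ^ 2 ≠ 0 := fun t => by positivity
  have hA2u : Continuous fun t : ℝ => Real.log (1 + b * t ^ 2) - b * t ^ 2 / (1 + b * t ^ 2) :=
    ((continuous_const.add (continuous_const.mul (continuous_id.pow 2))).log hden).sub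
      ((continuous_const.mul (continuous_id.pow 2)).div
        (continuous_const.add (continuous_const.mul (continuous_id.pow 2))) hden)
  have hB2u : Continuous fun t : ℝ => β * t ^ 2 / (1 + b * t ^ 2) :=
    (continuous_const.mul (continuous_id.pow 2)).div
      (continuous_const.add (continuous_const.mul (continuous_id.pow 2))) hden
  have h01 : ∀ {f : ℝ → ℝ}, IntervalIntegrable f volume 0 1 ↔
      Integrable f (volume.restrict (Ioo (0 : ℝ) 1)) :=
    intervalIntegrable_iff_integrableOn_Ioo_of_le zero_le_one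
  have iA2 : Integrable A2 (volume.restrict (Ioo (0 : ℝ) 1)) :=
    (h01.1 (hA2c _ hA2u)).congr (by
      filter_upwards [ae_restrict_mem measurableSet_Ioo] with t ht
      simp only [hA2, hgc, clamp_eq ht])
  have iB2 : Integrable B2 (volume.restrict (Ioo (0 : ℝ) 1)) :=
    (h01.1 (hA2c _ hB2u)).congr (by
      filter_upwards [ae_restrict_mem measurableSet_Ioo] with t ht
      simp only [hB2, hgc, clamp_eq ht])
  have eF2 : ∀ t R, R * F2 t R = A2 t * wt (p + 3) R + B2 t * wt (p + 5) R := fun t R => by
    simp only [hF2, wt]; ring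
  have hF2m : Measurable (Function.uncurry F2) :=
    ((Stam.continuous_wt _).measurable.comp measurable_snd).mul
      ((((mg.pow_const _).mul hA2u.measurable).comp measurable_fst).add
        ((((mg.pow_const _).mul hB2u.measurable).comp measurable_fst).mul
          (measurable_snd.pow_const 2)))
  have iF2a := iA2.mul_prod (Stam.integrableOn_wt (p + 3))
  have iF2b := iB2.mul_prod (Stam.integrableOn_wt (p + 5))
  have hF2i : Integrable (fun z : ℝ × ℝ => z.2 * F2 z.1 z.2) stateMeasure :=
    (iF2a.add iF2b).congr (Eventually.of_forall fun z => (eF2 z.1 z.2).symm)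
  obtain ⟨a1, b1, v1⟩ := polar_swap hF1m hF1i
  obtain ⟨a2, b2, v2⟩ := polar_swap hF2m hF2i
  -- every height
  have hy0 : ∀ᵐ y ∂volume.restrict (Ioi (0 : ℝ)),
      -(Z y * Real.log (Z y)) + Real.log (radial (p + 2)) * Z y ≤
        (Z y * τ y ^ 2 / 2 + (Real.log lam - 1) * Z y) +
          ((∫ R in Ioi y, F1 (y / R) R) / lam + ∫ R in Ioi y, F2 (y / R) R) := by
    filter_upwards [a1, a2, ae_restrict_mem measurableSet_Ioi] with y h1 h2 hy
    have hy' : 0 < y := hy
    have htail : (∫ w in Ioi (0 : ℝ),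
        wt (p + 2) w * tail (curveR σ y w * σ (y / curveR σ y w))) / radial (p + 2) =
        tail (τ y) := by
      rw [tail_mass hg hσ hy', ← hZ, hMsplit y hy'.le]
      simp only [tail, hτ]
      rw [gam_invGam 0 (hPmem y hy'), hid]
      field_simp
    have hsec := section_le hB hg hσ hy' htail
    set P := ∫ R in Ioi y, wt (p + 2) R * starA p g σ (y / R) with hP
    have hd : 0 < 1 + β * y ^ 2 := by positivity
    have hw0 := wt_zero_pos (τ y)
    have hlog : Real.log (radial (p + 2)) - τ y ^ 2 / 2 - Real.log (Z y) ≤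
        P / (Z y * (lam * (1 + β * y ^ 2))) +
          (Real.log lam + Real.log (1 + β * y ^ 2) - 1) := by
      have hP0 : 0 < P := lt_of_lt_of_le (mul_pos hrk hw0) hsec
      have e : Real.log (radial (p + 2)) - τ y ^ 2 / 2 - Real.log (Z y) =
          Real.log (radial (p + 2) * wt 0 (τ y) / Z y) := by
        rw [Real.log_div (mul_pos hrk hw0).ne' (hZpos y).ne', Real.log_mul hrk.ne' hw0.ne',
          wt_zero, Real.log_exp]
        ring
      rw [e]
      refine (Real.log_le_log (div_pos (mul_pos hrk hw0) (hZpos y))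
        (div_le_div_of_nonneg_right hsec (hZpos y).le)).trans ?_
      have h := Stam.log_le_div (div_pos hP0 (hZpos y)) (mul_pos hlam hd)
      rw [div_div, Real.log_mul hlam.ne' hd.ne'] at h
      linarith
    have hF1e : ∫ R in Ioi y, F1 (y / R) R = P / (1 + β * y ^ 2) := by
      rw [hP, ← integral_div]
      refine setIntegral_congr_fun measurableSet_Ioi fun R hR => ?_
      have hR0 : R ≠ 0 := (hy'.trans hR).ne'
      simp only [hF1, hAcv _ (div_mem_Ioo hy' hR), mul_div_cancel₀ _ hR0]
    have hF2e : Z y * Real.log (1 + β * y ^ 2) ≤ ∫ R in Ioi y, F2 (y / R) R := by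
      rw [hZ, liftDens_eq hy', ← integral_mul_const]
      refine integral_mono_of_nonneg ?_ h2 ?_
      · filter_upwards [ae_restrict_mem measurableSet_Ioi] with R hR
        have ht := div_mem_Ioo hy' hR
        exact mul_nonneg (mul_nonneg (wt_pos _ (hy'.trans hR)).le
          (pow_nonneg (hg.pos_of_lt ⟨ht.1.le, ht.2⟩).le _)) (Real.log_nonneg (by nlinarith))
      · filter_upwards [ae_restrict_mem measurableSet_Ioi] with R hR
        have hR0 : 0 < R := hy'.trans hR
        have ht := div_mem_Ioo hy' hR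
        simp only [hF2, hA2, hB2, hgc, clamp_eq ht]
        set x := b * (y / R) ^ 2 with hx
        have hx0 : 0 ≤ x := by positivity
        have hll := Stam.log_le_div hd (show 0 < 1 + x by linarith)
        rw [mul_assoc]
        refine mul_le_mul_of_nonneg_left ?_ (wt_pos _ hR0).le
        rw [show g (y / R) ^ (p + 1) * (Real.log (1 + x) - x / (1 + x)) +
            g (y / R) ^ (p + 1) * (β * (y / R) ^ 2 / (1 + x)) * R ^ 2 =
          g (y / R) ^ (p + 1) * ((1 + β * y ^ 2) / (1 + x) + (Real.log (1 + x) - 1)) by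
            field_simp
            ring]
        exact mul_le_mul_of_nonneg_left hll (pow_nonneg (hg.pos_of_lt ⟨ht.1.le, ht.2⟩).le _)
    have hm := mul_le_mul_of_nonneg_left hlog (hZpos y).le
    rw [mul_add (Z y), show Z y * (P / (Z y * (lam * (1 + β * y ^ 2)))) =
      P / (1 + β * y ^ 2) / lam by have := (hZpos y).ne'; field_simp, ← hF1e] at hm
    linarith
  have iL : IntegrableOn (fun y => -(Z y * Real.log (Z y)) + Real.log (radial (p + 2)) * Z y)
      (Ioi 0) := hZlog.neg.add (iD.const_mul _)
  have iR1 : IntegrableOn (fun y => Z y * τ y ^ 2 / 2 + (Real.log lam - 1) * Z y) (Ioi 0) :=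
    isq.add (iD.const_mul _)
  have b1' : IntegrableOn (fun y => (∫ R in Ioi y, F1 (y / R) R) / lam) (Ioi 0) := b1.div_const _
  have iR2 : IntegrableOn (fun y => (∫ R in Ioi y, F1 (y / R) R) / lam +
      ∫ R in Ioi y, F2 (y / R) R) (Ioi 0) := b1'.add b2
  have hmain := integral_mono_ae iL (iR1.add iR2) hy0
  simp only [Pi.add_apply] at hmain
  rw [integral_add hZlog.fun_neg (iD.const_mul _), integral_neg, integral_const_mul, hZint,
    integral_add iR1 iR2, integral_add isq (iD.const_mul _), esq, integral_const_mul, hZint,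
    integral_add b1' b2, integral_div, v1, v2] at hmain
  -- the values
  have hrow1 : ∀ t ∈ Ioo (0 : ℝ) 1, ∫ R in Ioi (0 : ℝ), R * F1 t R =
      radial (p + 3) * (starA p g σ t * starWt p β t) := fun t ht => by
    rw [starWt, mul_left_comm, mul_div_cancel₀ _ hr3.ne',
      ← integral_const_mul]
    refine setIntegral_congr_fun measurableSet_Ioi fun R _ => ?_
    simp only [hF1, hAcv t ht, ← hwt3 R]
    ring
  have iAW : IntervalIntegrable (fun t => starA p g σ t * starWt p β t) volume 0 1 := by
    refine h01.2 ((hF1i.integral_prod_left.div_const (radial (p + 3))).congr ?_)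
    filter_upwards [ae_restrict_mem measurableSet_Ioo] with t ht
    rw [hrow1 t ht]
    field_simp
  have w1 : ∫ z, z.2 * F1 z.1 z.2 ∂stateMeasure =
      radial (p + 3) * ∫ t in (0 : ℝ)..1, starA p g σ t * starWt p β t := by
    rw [stateMeasure, integral_prod _ hF1i, intervalIntegral.integral_of_le zero_le_one,
      integral_Ioc_eq_integral_Ioo, ← integral_const_mul]
    exact setIntegral_congr_fun measurableSet_Ioo hrow1
  have iLog : IntervalIntegrable (fun t => g t ^ (p + 1) * Real.log (1 + b * t ^ 2)) volume 0 1 :=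
    hA2c _ ((continuous_const.add (continuous_const.mul (continuous_id.pow 2))).log hden)
  have w2 : ∫ z, z.2 * F2 z.1 z.2 ∂stateMeasure =
      radial (p + 3) * ∫ t in (0 : ℝ)..1, g t ^ (p + 1) * Real.log (1 + b * t ^ 2) := by
    rw [integral_congr_ae (Eventually.of_forall fun z : ℝ × ℝ => eF2 z.1 z.2), stateMeasure,
      integral_add iF2a iF2b, integral_prod_mul A2 (wt (p + 3)),
      integral_prod_mul B2 (wt (p + 5)), Stam.integral_wt, Stam.integral_wt,
      show p + 5 = p + 3 + 2 by rfl, radial_step (p + 3), ← mul_assoc, ← add_mul, ← integral_mul_const,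
      ← integral_add iA2 (iB2.mul_const _), mul_comm (radial (p + 3)),
      intervalIntegral.integral_of_le zero_le_one, integral_Ioc_eq_integral_Ioo]
    congr 1
    refine setIntegral_congr_fun measurableSet_Ioo fun t ht => ?_
    simp only [hA2, hB2, hgc, clamp_eq ht, hbdef]
    have : 1 + β * ((p : ℝ) + 4) * t ^ 2 ≠ 0 := hden t
    push_cast
    field_simp
    ring
  rw [w1, w2] at hmain
  have iG : IntervalIntegrable (fun t => g t ^ (p + 1)) volume 0 1 :=
    ((continuousOn_profile hg).pow _).intervalIntegrable_of_Icc zero_le_one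
  have heq : ∀ t ∈ Ioo (0 : ℝ) 1, g t ^ (p + 1) * starE p β lam (σ t) t (rate p g σ t) =
      starA p g σ t * starWt p β t / lam + (Real.log lam - 1) * g t ^ (p + 1) +
        g t ^ (p + 1) * Real.log (1 + b * t ^ 2) := fun t ht => by
    rw [starE, ← starA_eq hg hσ ht, hbdef]
    ring
  have iS : IntervalIntegrable (fun t => starA p g σ t * starWt p β t / lam +
      (Real.log lam - 1) * g t ^ (p + 1) + g t ^ (p + 1) * Real.log (1 + b * t ^ 2)) volume 0 1 :=
    ((iAW.div_const _).add (iG.const_mul _)).add iLog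
  have heq' : ∀ᵐ t ∂volume, t ∈ uIoc (0 : ℝ) 1 →
      starA p g σ t * starWt p β t / lam + (Real.log lam - 1) * g t ^ (p + 1) +
        g t ^ (p + 1) * Real.log (1 + b * t ^ 2) =
      g t ^ (p + 1) * starE p β lam (σ t) t (rate p g σ t) := by
    filter_upwards [Measure.ae_ne volume (1 : ℝ)] with t h1 ht
    rw [uIoc_of_le zero_le_one] at ht
    exact (heq t ⟨ht.1, lt_of_le_of_ne ht.2 h1⟩).symm
  refine ⟨iS.congr_ae (by rwa [← ae_restrict_iff' measurableSet_uIoc] at heq'), ?_⟩
  rw [← intervalIntegral.integral_congr_ae heq', le_div_iff₀ hhalf, mul_comm, hent,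
    intervalIntegral.integral_add ((iAW.div_const _).add (iG.const_mul _)) iLog,
    intervalIntegral.integral_add (iAW.div_const _) (iG.const_mul _),
    intervalIntegral.integral_div, intervalIntegral.integral_const_mul, integral_mass hσ]
  have hc0 : Real.log (radial (p + 3) * circ (p + 1)) - Real.log (2 * Real.pi * Real.exp 1) / 2 =
      Real.log (radial (p + 2)) - 1 / 2 := by
    rw [Stam.radial_circ, radial_step, Real.log_mul (mul_pos (by positivity) (radial_pos p)).ne'
      (by positivity), Real.log_sqrt (by positivity),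
      Real.log_mul (by positivity : (2 * Real.pi) ≠ 0) (Real.exp_pos 1).ne', Real.log_exp]
    ring
  rw [hc0]
  refine le_of_mul_le_mul_left (le_trans (le_of_eq ?_) (le_trans (sub_le_sub_right hmain (Z0 / 2))
    (le_of_eq ?_))) hr3
  · rw [hZ0def]
    field_simp
    ring
  · rw [hZ0def]
    ring

end Vale.Agent.P237.Petty.Lift.Star
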