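import Mathlib

/-!
# P237: the isoperimetric function of the Gauss line and the two point inequality

`isoI p` is the Gauss density at the level of mass `p`. It satisfies `isoI * isoI'' = -1`, which
gives Bobkov's inequality on two points.
-/

namespace Vale.Agent.P237.Petty.Lift.Star

open MeasureTheory Set Filter Topology ProbabilityTheory

/-- The Gauss density. -/
noncomputable def gphi (x : ℝ) : ℝ := (√(2 * Real.pi))⁻¹ * Real.exp (-(x ^ 2) / 2)

/-- The Gauss tail. -/
noncomputable def gtail (x : ℝ) : ℝ := ∫ u in Ioi x, gphi u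

/-- The level of a tail. -/
noncomputable def glevel (p : ℝ) : ℝ := Function.invFun gtail p

/-- The isoperimetric function. -/
noncomputable def isoI (p : ℝ) : ℝ := gphi (glevel p)

theorem gphi_eq (x : ℝ) : gphi x = gaussianPDFReal 0 1 x := by
  simp [gphi, gaussianPDFReal]

theorem gphi_pos (x : ℝ) : 0 < gphi x := by unfold gphi; positivity

@[fun_prop]
theorem continuous_gphi : Continuous gphi := by unfold gphi; fun_prop

theorem integrable_gphi : Integrable gphi := by
  rw [show gphi = gaussianPDFReal 0 1 from funext gphi_eq]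
  exact integrable_gaussianPDFReal 0 1

theorem integral_gphi : ∫ x, gphi x = 1 := by
  simp only [gphi_eq]
  exact integral_gaussianPDFReal_eq_one 0 one_ne_zero

theorem gphi_neg (x : ℝ) : gphi (-x) = gphi x := by simp [gphi]

theorem gphi_le_of_sq_le {x y : ℝ} (h : x ^ 2 ≤ y ^ 2) : gphi y ≤ gphi x := by
  unfold gphi
  exact mul_le_mul_of_nonneg_left (Real.exp_le_exp.2 (by linarith)) (by positivity)

theorem hasDerivAt_gphi (x : ℝ) : HasDerivAt gphi (-x * gphi x) x := by
  have h : HasDerivAt gphi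
      ((√(2 * Real.pi))⁻¹ * (Real.exp (-(x ^ 2) / 2) * (-((2 : ℕ) * x ^ (2 - 1)) / 2))) x :=
    ((((hasDerivAt_pow 2 x).neg).div_const 2).exp).const_mul _
  refine h.congr_deriv ?_
  simp [gphi]
  ring

theorem gtail_split (x : ℝ) : (∫ u in Iic x, gphi u) + gtail x = 1 := by
  rw [gtail, intervalIntegral.integral_Iic_add_Ioi integrable_gphi.integrableOn
    integrable_gphi.integrableOn, integral_gphi]

theorem hasDerivAt_gtail (x : ℝ) : HasDerivAt gtail (-gphi x) x := by
  have h : ∀ y, gtail y = gtail 0 - ∫ u in (0 : ℝ)..y, gphi u := fun y => by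
    have := intervalIntegral.integral_Iic_sub_Iic (integrable_gphi.integrableOn (s := Iic 0))
      (integrable_gphi.integrableOn (s := Iic y))
    linarith [gtail_split 0, gtail_split y]
  exact ((continuous_gphi.integral_hasStrictDerivAt 0 x).hasDerivAt.const_sub (gtail 0)
    |>.congr_of_eventuallyEq (Eventually.of_forall h))

@[fun_prop]
theorem continuous_gtail : Continuous gtail :=
  continuous_iff_continuousAt.2 fun x => (hasDerivAt_gtail x).continuousAt

theorem strictAnti_gtail : StrictAnti gtail :=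
  strictAnti_of_deriv_neg fun x => by rw [(hasDerivAt_gtail x).deriv]; linarith [gphi_pos x]

theorem gtail_neg (x : ℝ) : gtail (-x) = 1 - gtail x := by
  have h : ∀ y, HasDerivAt (fun y => gtail (-y) + gtail y) 0 y := fun y => by
    refine (((hasDerivAt_gtail (-y)).comp y (hasDerivAt_neg y)).add
      (hasDerivAt_gtail y)).congr_deriv ?_
    rw [gphi_neg]; ring
  have hc := is_const_of_deriv_eq_zero (fun y => (h y).differentiableAt) (fun y => (h y).deriv) x 0
  have h0 : gtail 0 = 1 / 2 := by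
    have e : ∫ u in Iic (0 : ℝ), gphi u = gtail 0 := by
      have := integral_comp_neg_Iic (0 : ℝ) gphi
      simpa [gphi_neg, gtail] using this
    linarith [gtail_split 0]
  simp only [neg_zero] at hc
  linarith

theorem tendsto_gtail_atTop : Tendsto gtail atTop (𝓝 0) := by
  have h := tendsto_const_nhds (x := gtail 0) (f := (atTop : Filter ℝ)) |>.sub
    (intervalIntegral_tendsto_integral_Ioi 0 integrable_gphi.integrableOn tendsto_id)
  rw [show gtail 0 - ∫ u in Ioi (0 : ℝ), gphi u = 0 from sub_self _] at h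
  refine h.congr fun y => ?_
  have := intervalIntegral.integral_Iic_sub_Iic (integrable_gphi.integrableOn (s := Iic 0))
    (integrable_gphi.integrableOn (s := Iic y))
  simp only [id]
  linarith [gtail_split 0, gtail_split y]

theorem gtail_mem (x : ℝ) : gtail x ∈ Ioo (0 : ℝ) 1 := by
  have h1 : ∀ y, 0 ≤ gtail y := fun y => setIntegral_nonneg measurableSet_Ioi fun u _ =>
    (gphi_pos u).le
  refine ⟨(h1 (x + 1)).trans_lt (strictAnti_gtail (lt_add_one x)), ?_⟩
  have h3 := (h1 (-x + 1)).trans_lt (strictAnti_gtail (lt_add_one (-x)))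
  rw [gtail_neg] at h3
  linarith

theorem glevel_gtail (x : ℝ) : glevel (gtail x) = x :=
  Function.leftInverse_invFun strictAnti_gtail.injective x

theorem isoI_gtail (x : ℝ) : isoI (gtail x) = gphi x := by rw [isoI, glevel_gtail]

theorem gtail_glevel {p : ℝ} (hp : p ∈ Ioo (0 : ℝ) 1) : gtail (glevel p) = p := by
  refine Function.invFun_eq ?_
  obtain ⟨b, hb⟩ := (tendsto_gtail_atTop.eventually_lt_const hp.1).exists
  obtain ⟨a, ha⟩ := (tendsto_gtail_atTop.eventually_lt_const (sub_pos.2 hp.2)).exists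
  have ha' : p < gtail (-a) := by rw [gtail_neg]; linarith
  have hab : -a ≤ b := by
    by_contra hc
    linarith [strictAnti_gtail (lt_of_not_ge hc)]
  obtain ⟨z, _, hz⟩ := intermediate_value_Icc' hab continuous_gtail.continuousOn ⟨hb.le, ha'.le⟩
  exact ⟨z, hz⟩

theorem glevel_anti {p q : ℝ} (hp : p ∈ Ioo (0 : ℝ) 1) (hq : q ∈ Ioo (0 : ℝ) 1) (h : p ≤ q) :
    glevel q ≤ glevel p := by
  rw [← strictAnti_gtail.le_iff_ge, gtail_glevel hp, gtail_glevel hq]
  exact h

theorem glevel_one_sub {p : ℝ} (hp : p ∈ Ioo (0 : ℝ) 1) : glevel (1 - p) = -glevel p := by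
  rw [show 1 - p = gtail (-glevel p) by rw [gtail_neg, gtail_glevel hp], glevel_gtail]

theorem isoI_one_sub {p : ℝ} (hp : p ∈ Ioo (0 : ℝ) 1) : isoI (1 - p) = isoI p := by
  rw [isoI, glevel_one_sub hp, gphi_neg, ← isoI]

theorem hasDerivAt_glevel {p : ℝ} (hp : p ∈ Ioo (0 : ℝ) 1) :
    HasDerivAt glevel (-(isoI p))⁻¹ p := by
  refine HasDerivAt.of_local_left_inverse ?_ (hasDerivAt_gtail _)
    (neg_ne_zero.2 (gphi_pos _).ne') ?_
  · have hm : StrictMonoOn (fun q => -glevel q) (Ioo (0 : ℝ) 1) := fun a ha b hb hab => by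
      refine neg_lt_neg ((glevel_anti ha hb hab.le).lt_of_ne fun he => hab.ne ?_)
      rw [← gtail_glevel ha, ← gtail_glevel hb, he]
    have himg : (fun q => -glevel q) '' Ioo (0 : ℝ) 1 = univ := eq_univ_of_forall fun x =>
      ⟨gtail (-x), gtail_mem _, by simp [glevel_gtail]⟩
    have := (hm.continuousAt_of_image_mem_nhds (Ioo_mem_nhds hp.1 hp.2)
      (by rw [himg]; exact univ_mem)).neg
    simp only [Pi.neg_def, neg_neg] at this
    exact this
  · filter_upwards [Ioo_mem_nhds hp.1 hp.2] with q hq using gtail_glevel hq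

theorem isoI_pos (p : ℝ) : 0 < isoI p := gphi_pos _

theorem isoI_le (p : ℝ) : isoI p ≤ gphi 0 := gphi_le_of_sq_le (by nlinarith)

theorem hasDerivAt_isoI {p : ℝ} (hp : p ∈ Ioo (0 : ℝ) 1) : HasDerivAt isoI (glevel p) p := by
  refine ((hasDerivAt_gphi _).comp p (hasDerivAt_glevel hp)).congr_deriv ?_
  have h := (isoI_pos p).ne'
  simp only [isoI] at h ⊢
  field_simp

theorem hasDerivAt_isoI_mul {p : ℝ} (hp : p ∈ Ioo (0 : ℝ) 1) :
    HasDerivAt (fun q => isoI q * glevel q) (glevel p ^ 2 - 1) p := by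
  refine ((hasDerivAt_isoI hp).mul (hasDerivAt_glevel hp)).congr_deriv ?_
  have h := (isoI_pos p).ne'
  field_simp
  ring

theorem continuousOn_isoI : ContinuousOn isoI (Ioo 0 1) := fun _ hp =>
  (hasDerivAt_isoI hp).continuousAt.continuousWithinAt

theorem sq_glevel_midpoint {c y : ℝ} (hy : 0 ≤ y) (h0 : 0 < c - y) (h1 : c + y < 1) :
    2 * glevel c ^ 2 ≤ glevel (c + y) ^ 2 + glevel (c - y) ^ 2 := by
  have hd : ∀ q ∈ Ioo (0 : ℝ) 1,
      HasDerivAt (fun q => glevel q ^ 2) (-(2 * glevel q / isoI q)) q := fun q hq => by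
    refine ((hasDerivAt_glevel hq).fun_pow 2).congr_deriv ?_
    have h := (isoI_pos q).ne'
    field_simp
    ring
  have hd2 : ∀ q ∈ Ioo (0 : ℝ) 1, HasDerivAt (fun q => -(2 * glevel q / isoI q))
      (2 * (1 + glevel q ^ 2) / isoI q ^ 2) q := fun q hq => by
    refine (((hasDerivAt_glevel hq).const_mul 2).div (hasDerivAt_isoI hq)
      (isoI_pos q).ne').neg.congr_deriv ?_
    have h := (isoI_pos q).ne'
    field_simp
    ring
  have hcv : ConvexOn ℝ (Ioo (0 : ℝ) 1) fun q => glevel q ^ 2 := by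
    refine convexOn_of_hasDerivWithinAt2_nonneg (convex_Ioo 0 1)
      (fun q hq => (hd q hq).continuousAt.continuousWithinAt)
      (f' := fun q => -(2 * glevel q / isoI q)) (f'' := fun q => 2 * (1 + glevel q ^ 2) / isoI q ^ 2)
      (fun q hq => ?_) (fun q hq => ?_) fun q _ => ?_
    · rw [interior_Ioo] at hq ⊢; exact (hd q hq).hasDerivWithinAt
    · rw [interior_Ioo] at hq ⊢; exact (hd2 q hq).hasDerivWithinAt
    · positivity
  have h := hcv.2 (show c + y ∈ Ioo (0 : ℝ) 1 from ⟨by linarith, h1⟩)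
    (show c - y ∈ Ioo (0 : ℝ) 1 from ⟨h0, by linarith⟩)
    (show (0 : ℝ) ≤ 1 / 2 by norm_num) (show (0 : ℝ) ≤ 1 / 2 by norm_num)
    (show (1 : ℝ) / 2 + 1 / 2 = 1 by norm_num)
  simp only [smul_eq_mul] at h
  rw [show (1 / 2 : ℝ) * (c + y) + 1 / 2 * (c - y) = c by ring] at h
  linarith

theorem two_point_of_le {a b : ℝ} (ha : 0 < a) (hab : a ≤ b) (hb : b < 1) (hc : a + b ≤ 1) :
    2 * isoI ((a + b) / 2) ≤
      √(isoI a ^ 2 + ((b - a) / 2) ^ 2) + √(isoI b ^ 2 + ((b - a) / 2) ^ 2) := by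
  set c := (a + b) / 2 with hcdef
  set x := (b - a) / 2 with hxdef
  have hx : 0 ≤ x := by linarith
  have hm : ∀ y ∈ Icc (0 : ℝ) x, c + y ∈ Ioo (0 : ℝ) 1 ∧ c - y ∈ Ioo (0 : ℝ) 1 := fun y hy =>
    ⟨⟨by linarith [hy.1], by linarith [hy.2]⟩, by linarith [hy.2], by linarith [hy.1]⟩
  set G := glevel c
  set I := isoI c
  -- the first comparison
  set s : ℝ → ℝ := fun y => (isoI (c + y) ^ 2 + isoI (c - y) ^ 2) / 2 + y ^ 2 - I ^ 2 - G ^ 2 * y ^ 2
  set s1 : ℝ → ℝ := fun y =>
    isoI (c + y) * glevel (c + y) - isoI (c - y) * glevel (c - y) + 2 * y - 2 * G ^ 2 * y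
  have hs : ∀ y ∈ Icc (0 : ℝ) x, HasDerivAt s (s1 y) y := fun y hy => by
    obtain ⟨h1, h2⟩ := hm y hy
    refine (((((hasDerivAt_isoI h1).comp_const_add c y).fun_pow 2).add
      (((hasDerivAt_isoI h2).comp_const_sub c y).fun_pow 2)).div_const 2 |>.add
        (hasDerivAt_pow 2 y) |>.sub_const (I ^ 2) |>.sub
          ((hasDerivAt_pow 2 y).const_mul (G ^ 2))).congr_deriv ?_
    simp [s1]
    ring
  have hs1 : ∀ y ∈ Icc (0 : ℝ) x, HasDerivAt s1
      (glevel (c + y) ^ 2 + glevel (c - y) ^ 2 - 2 * G ^ 2) y := fun y hy => by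
    obtain ⟨h1, h2⟩ := hm y hy
    refine ((((hasDerivAt_isoI_mul h1).comp_const_add c y).sub
      ((hasDerivAt_isoI_mul h2).comp_const_sub c y)).add ((hasDerivAt_id y).const_mul 2) |>.sub
        ((hasDerivAt_id y).const_mul (2 * G ^ 2))).congr_deriv ?_
    ring
  have hs1mono : MonotoneOn s1 (Icc 0 x) := by
    refine monotoneOn_of_hasDerivWithinAt_nonneg (convex_Icc 0 x)
      (fun y hy => (hs1 y hy).continuousAt.continuousWithinAt)
      (fun y hy => (hs1 y (interior_subset hy)).hasDerivWithinAt) fun y hy => ?_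
    have hy' := interior_subset hy
    obtain ⟨h1, h2⟩ := hm y hy'
    linarith [sq_glevel_midpoint hy'.1 h2.1 h1.2]
  have hsmono : MonotoneOn s (Icc 0 x) := by
    refine monotoneOn_of_hasDerivWithinAt_nonneg (convex_Icc 0 x)
      (fun y hy => (hs y hy).continuousAt.continuousWithinAt)
      (fun y hy => (hs y (interior_subset hy)).hasDerivWithinAt) fun y hy => ?_
    have hy' := interior_subset hy
    refine le_trans (le_of_eq ?_) (hs1mono ⟨le_rfl, hx⟩ hy' hy'.1)
    simp [s1]
  have hs0 := hsmono ⟨le_rfl, hx⟩ ⟨hx, le_rfl⟩ hx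
  simp only [s, add_zero, sub_zero, zero_pow two_ne_zero, mul_zero] at hs0
  -- the second comparison
  set D : ℝ → ℝ := fun y => (isoI (c + y) ^ 2 - isoI (c - y) ^ 2) / 2
  set D1 : ℝ → ℝ := fun y => isoI (c + y) * glevel (c + y) + isoI (c - y) * glevel (c - y)
  have hD : ∀ y ∈ Icc (0 : ℝ) x, HasDerivAt (fun y => 2 * I * G * y - D y) (2 * I * G - D1 y) y :=
    fun y hy => by
      obtain ⟨h1, h2⟩ := hm y hy
      refine (((hasDerivAt_id y).const_mul (2 * I * G)).sub
        (((((hasDerivAt_isoI h1).comp_const_add c y).fun_pow 2).sub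
          (((hasDerivAt_isoI h2).comp_const_sub c y).fun_pow 2)).div_const 2)).congr_deriv ?_
      simp [D1]
      ring
  have habs : ∀ y ∈ Icc (0 : ℝ) x, glevel (c + y) ^ 2 ≤ glevel (c - y) ^ 2 := fun y hy => by
    obtain ⟨h1, h2⟩ := hm y hy
    have e1 := glevel_anti h2 h1 (by linarith [hy.1])
    have h3 : 1 - (c + y) ∈ Ioo (0 : ℝ) 1 := ⟨by linarith [h1.2], by linarith [h1.1]⟩
    have e2 := glevel_anti h2 h3 (by linarith)
    rw [glevel_one_sub h1] at e2
    nlinarith
  have hD1 : ∀ y ∈ Icc (0 : ℝ) x, HasDerivAt (fun y => 2 * I * G - D1 y)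
      (glevel (c - y) ^ 2 - glevel (c + y) ^ 2) y := fun y hy => by
    obtain ⟨h1, h2⟩ := hm y hy
    refine ((((hasDerivAt_isoI_mul h1).comp_const_add c y).add
      ((hasDerivAt_isoI_mul h2).comp_const_sub c y)).const_sub (2 * I * G)).congr_deriv ?_
    ring
  have hD1mono : MonotoneOn (fun y => 2 * I * G - D1 y) (Icc 0 x) := by
    refine monotoneOn_of_hasDerivWithinAt_nonneg (convex_Icc 0 x)
      (fun y hy => (hD1 y hy).continuousAt.continuousWithinAt)
      (fun y hy => (hD1 y (interior_subset hy)).hasDerivWithinAt) fun y hy => ?_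
    linarith [habs y (interior_subset hy)]
  have hDmono : MonotoneOn (fun y => 2 * I * G * y - D y) (Icc 0 x) := by
    refine monotoneOn_of_hasDerivWithinAt_nonneg (convex_Icc 0 x)
      (fun y hy => (hD y hy).continuousAt.continuousWithinAt)
      (fun y hy => (hD y (interior_subset hy)).hasDerivWithinAt) fun y hy => ?_
    have hy' := interior_subset hy
    refine le_trans (le_of_eq ?_) (hD1mono ⟨le_rfl, hx⟩ hy' hy'.1)
    simp [D1, I, G]
    ring
  have hDx := hDmono ⟨le_rfl, hx⟩ ⟨hx, le_rfl⟩ hx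
  simp only [D, add_zero, sub_zero, sub_self, zero_div, mul_zero] at hDx
  have hba : isoI a ≤ isoI b := by
    have := gphi_le_of_sq_le (habs x ⟨hx, le_rfl⟩)
    rwa [show c + x = b by ring, show c - x = a by ring] at this
  -- conclusion
  have hbe : c + x = b := by ring
  have hae : c - x = a := by ring
  rw [hbe, hae] at hs0 hDx
  have hI : 0 < I := isoI_pos c
  have hd0 : 0 ≤ (isoI b ^ 2 - isoI a ^ 2) / 2 := by nlinarith [isoI_pos a]
  have hdd : ((isoI b ^ 2 - isoI a ^ 2) / 2) ^ 2 ≤ (2 * I * G * x) ^ 2 :=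
    pow_le_pow_left₀ hd0 (by linarith) 2
  set A := isoI a ^ 2 + x ^ 2 with hA
  set B := isoI b ^ 2 + x ^ 2 with hB
  have hprod : 2 * I ^ 2 - (A + B) / 2 ≤ √(A * B) := by
    rcases le_total (2 * I ^ 2 - (A + B) / 2) 0 with h | h
    · exact h.trans (Real.sqrt_nonneg _)
    · refine Real.le_sqrt_of_sq_le ?_
      nlinarith [mul_le_mul_of_nonneg_left hs0 (show 0 ≤ 4 * I ^ 2 by positivity), hdd]
  rw [Real.sqrt_mul (by positivity)] at hprod
  have e1 := Real.sq_sqrt (show 0 ≤ A by positivity)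
  have e2 := Real.sq_sqrt (show 0 ≤ B by positivity)
  refine (pow_le_pow_iff_left₀ (by positivity) (by positivity) two_ne_zero).1 ?_
  nlinarith

/-- Bobkov's inequality on two points. -/
theorem two_point {a b : ℝ} (ha : a ∈ Ioo (0 : ℝ) 1) (hb : b ∈ Ioo (0 : ℝ) 1) :
    2 * isoI ((a + b) / 2) ≤
      √(isoI a ^ 2 + ((a - b) / 2) ^ 2) + √(isoI b ^ 2 + ((a - b) / 2) ^ 2) := by
  have key : ∀ a b : ℝ, a ∈ Ioo (0 : ℝ) 1 → b ∈ Ioo (0 : ℝ) 1 → a ≤ b →
      2 * isoI ((a + b) / 2) ≤
        √(isoI a ^ 2 + ((a - b) / 2) ^ 2) + √(isoI b ^ 2 + ((a - b) / 2) ^ 2) := by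
    intro a b ha hb hab
    rw [show ((a - b) / 2) ^ 2 = ((b - a) / 2) ^ 2 by ring]
    rcases le_total (a + b) 1 with h | h
    · exact two_point_of_le ha.1 hab hb.2 h
    · have := two_point_of_le (a := 1 - b) (b := 1 - a) (by linarith [hb.2]) (by linarith)
        (by linarith [ha.1]) (by linarith)
      rw [show (1 - b + (1 - a)) / 2 = 1 - (a + b) / 2 by ring,
        show (1 - a - (1 - b)) / 2 = (b - a) / 2 by ring,
        isoI_one_sub ⟨by linarith [ha.1, hb.1], by linarith [ha.2, hb.2]⟩, isoI_one_sub ha,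
        isoI_one_sub hb] at this
      linarith
  rcases le_total a b with h | h
  · exact key a b ha hb h
  · have := key b a hb ha h
    rw [add_comm b a, show ((b - a) / 2) ^ 2 = ((a - b) / 2) ^ 2 by ring] at this
    linarith

end Vale.Agent.P237.Petty.Lift.Star
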