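import Vale.Agent.P237.Petty.Lift.Star.Entropy
import Vale.Agent.P237.Petty.Lift.Main

/-!
# P237: from a sign of the integrand with the mean gradient to the step

With the entropy bound by the mean gradient, the lifted inequality asks only for an inequality of
one integral over the abscissa. It follows from a sign of the integrand on the profiles, up to a
null field; the weight `β` and the scale `lam` may depend on the profile.
-/

namespace Vale.Agent.P237.Petty.Lift.Star

open MeasureTheory Set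
open Ident (half rate)

universe u

/-- The integrand at a state, with the whole budget of the obstacle. -/
noncomputable def starPart (p : ℕ) (nu β lam s t a r q : ℝ) : ℝ :=
  liftPart p nu (Ident.muMin p) s t a r q (starE p β lam s t r)
    (obsWeight p t * max 0 (Real.log (arc t / a)))

/-- The inequality with the mean gradient. -/
def StarCriterion (p : ℕ) (nu : ℝ) : Prop :=
  ∀ g σ : ℝ → ℝ, Regular g → Transport p g σ → ∃ β lam : ℝ, 0 ≤ β ∧ 0 < lam ∧
    Ident.muMin p * ((∫ t in (0 : ℝ)..1,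
        g t ^ (p + 1) * starE p β lam (σ t) t (rate p g σ t)) / half (p + 1)) ≤
      ((p : ℝ) + 1) * ((∫ t in (-1 : ℝ)..1, g t ^ p) / circ p - 1) +
        nu * (jInt p g / circ (p + 1) - 1) +
        (∫ t in (0 : ℝ)..1, obsPart p g t) / half (p + 1)

/-- The sign of the integrand on the profiles, up to a null field. -/
def PointwiseStar (p : ℕ) : Prop :=
  ∃ nu : ℝ, 0 ≤ nu ∧ ∀ g σ : ℝ → ℝ, Regular g → Transport p g σ →
    ∃ (β lam : ℝ) (D : ℝ → ℝ → ℝ → ℝ → ℝ → ℝ), 0 ≤ β ∧ 0 < lam ∧ NullField p D ∧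
      ∀ t ∈ Ioo (0 : ℝ) 1,
        0 ≤ starPart p nu β lam (σ t) t (g t) (rate p g σ t) (slopeR g t) +
          D (σ t) t (g t) (rate p g σ t) (slopeR g t)

theorem gBound_of_star (hB : GaussBobkov) {p : ℕ} (hp : 1 ≤ p) {nu : ℝ}
    (h : StarCriterion p nu) : GBound p (Ident.muMin p) nu := fun g hg hvol ε hε => by
  obtain ⟨σ, hσ⟩ := Ident.exists_transport_of_circ hg p hvol
  obtain ⟨β, lam, hβ, hlam, hI⟩ := h g σ hg hσ
  obtain ⟨hc, hpos, hint, hmass, hgrow, -, -, -⟩ := liftTest_spec (p := p) hg hσ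
  refine ⟨liftTest p g, ⟨hc, hpos, hint, hmass, hgrow⟩, ?_⟩
  have h1 := mul_le_mul_of_nonneg_left (entropy_star hB hg hσ hβ hlam).2 (muMin_pos hp).le
  linarith

theorem starCriterion_of_pointwise (hB : GaussBobkov) {p : ℕ} (hp : 1 ≤ p)
    (h : PointwiseStar p) : ∃ nu : ℝ, 0 ≤ nu ∧ StarCriterion p nu := by
  obtain ⟨nu, hnu, hP⟩ := h
  refine ⟨nu, hnu, fun g σ hg hσ => ?_⟩
  obtain ⟨β, lam, D, hβ, hlam, hD, hpos⟩ := hP g σ hg hσ
  obtain ⟨ψ, hψc, hends, hψd⟩ := hD g σ hg hσ
  refine ⟨β, lam, hβ, hlam, ?_⟩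
  have h := lifted_criterion hg hσ (nu := nu) (δ := 0) (muMin_pos hp).le
    (entropy_star hB hg hσ hβ hlam).1 (by rw [add_zero]) hψc hends hψd fun t ht => hpos t ht
  simp only [obsPart] at h ⊢
  linarith

/-- The criterion gives the step in dimension `p + 2`, with the case of equality. -/
theorem stepHolds_of_star (hB : GaussBobkov) {p : ℕ} (hp : 1 ≤ p) {nu : ℝ} (hnu : 0 ≤ nu)
    (h : StarCriterion p nu) : StepHolds.{u} p :=
  stepHolds_of_gBound hp le_rfl hnu (gBound_of_star hB hp h)

/-- The sign on the profiles gives the step in dimension `p + 2`, with the case of equality. -/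
theorem stepHolds_of_pointwiseStar (hB : GaussBobkov) {p : ℕ} (hp : 1 ≤ p) (h : PointwiseStar p) :
    StepHolds.{u} p := by
  obtain ⟨nu, hnu, hS⟩ := starCriterion_of_pointwise hB hp h
  exact stepHolds_of_star hB hp hnu hS

end Vale.Agent.P237.Petty.Lift.Star
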