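import Vale.Agent.P237.Petty.Lift.Star.Curve
import Vale.Agent.P237.Petty.Lift.Entropy

/-!
# P237: the mass of the lift above a height

Above each `w` the Gaussian mass over the level curve, integrated against the chi law, is the mass
of the lift above the height.
-/

namespace Vale.Agent.P237.Petty.Lift.Star

open MeasureTheory Set Filter Topology
open Ident (half rate)
open Stam (wt wt_pos)

variable {p : ℕ} {g σ : ℝ → ℝ} {y : ℝ}

theorem strictMonoOn_sigma (hg : Regular g) (hσ : Transport p g σ) :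
    StrictMonoOn σ (Icc 0 1) :=
  strictMonoOn_of_deriv_pos (convex_Icc 0 1) hσ.cont fun t ht => by
    rw [interior_Icc] at ht
    rw [(hσ.deriv t ht).deriv]
    exact rate_pos hg hσ ht

/-- The lift at a positive height. -/
theorem liftDens_eq (hy : 0 < y) :
    liftDens p g y = ∫ R in Ioi y, wt (p + 2) R * g (y / R) ^ (p + 1) := by
  rw [liftDens, Stam.slice, abs_of_pos hy]
  refine setIntegral_congr_fun measurableSet_Ioi fun R hR => ?_
  rw [Stam.core_of_mem]
  exact ⟨by linarith [(div_mem_Ioo hy hR).1], (div_mem_Ioo hy hR).2⟩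

/-- The Gaussian mass over the curve above one `w`. -/
theorem integral_height (hg : Regular g) (hσ : Transport p g σ) {w t₀ : ℝ} (hw : 0 < w)
    (h₀ : t₀ ∈ Ioo (0 : ℝ) 1) :
    IntegrableOn (fun t => wt 0 (w * σ t / arc (σ t)) * (w * rate p g σ t / arc (σ t) ^ 3))
        (Ioo t₀ 1) ∧
      ∫ t in Ioo t₀ 1, wt 0 (w * σ t / arc (σ t)) * (w * rate p g σ t / arc (σ t) ^ 3) =
        tail (w * σ t₀ / arc (σ t₀)) := by
  have hsub : Ioo t₀ 1 ⊆ Ioo (0 : ℝ) 1 := fun t ht => ⟨h₀.1.trans ht.1, ht.2⟩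
  set Γ := fun t => w * σ t / arc (σ t) with hΓ
  have hd : ∀ t ∈ Ioo (0 : ℝ) 1, HasDerivAt Γ (w * rate p g σ t / arc (σ t) ^ 3) t := fun t ht => by
    have hs := hσ.mem_Ioo t ht
    have hc : 0 < arc (σ t) := arc_pos ⟨by linarith [hs.1], hs.2⟩
    have hσd : HasDerivAt σ (rate p g σ t) t := hσ.deriv t ht
    have ha : HasDerivAt (fun x => arc (σ x))
        (-(2 * σ t * rate p g σ t) / (2 * arc (σ t))) t :=
      ((hσd.fun_pow 2).const_sub 1).sqrt (ne_of_gt (by nlinarith [hs.1, hs.2])) |>.congr_deriv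
        (by simp [arc])
    refine ((hσd.const_mul w).div ha hc.ne').congr_deriv ?_
    have hc2 := arc_sq (Ioo_subset_Icc_self hs)
    field_simp
    linear_combination (rate p g σ t) * hc2
  have hmono : StrictMonoOn Γ (Ioo (0 : ℝ) 1) := strictMonoOn_of_deriv_pos (convex_Ioo 0 1)
    (fun t ht => (hd t ht).continuousAt.continuousWithinAt) fun t ht => by
      rw [interior_Ioo] at ht
      have hs := hσ.mem_Ioo t ht
      rw [(hd t ht).deriv]
      exact div_pos (mul_pos hw (rate_pos hg hσ ht))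
        (pow_pos (arc_pos ⟨by linarith [hs.1], hs.2⟩) 3)
  have hlim : Tendsto Γ (𝓝[<] 1) atTop := by
    have hin : ∀ᶠ t in 𝓝[<] (1 : ℝ), t ∈ Ioo (0 : ℝ) 1 := Ioo_mem_nhdsLT zero_lt_one
    have h1 : Tendsto σ (𝓝[<] 1) (𝓝 1) := by
      have h : Tendsto σ (𝓝[Icc 0 1] 1) (𝓝 (σ 1)) :=
        hσ.cont 1 (right_mem_Icc.2 zero_le_one)
      rw [hσ.one] at h
      exact h.mono_left ((nhdsWithin_le_iff).2 (hin.mono fun t ht => Ioo_subset_Icc_self ht))
    have h2 : Tendsto (fun t => arc (σ t)) (𝓝[<] 1) (𝓝[>] 0) := by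
      refine tendsto_nhdsWithin_iff.2 ⟨?_, hin.mono fun t ht => ?_⟩
      · simpa [arc, Function.comp_def] using (continuous_arc.tendsto 1).comp h1
      · have hs := hσ.mem_Ioo t ht
        exact arc_pos ⟨by linarith [hs.1], hs.2⟩
    simp only [hΓ, div_eq_mul_inv]
    exact (h1.const_mul w).pos_mul_atTop (by linarith) (tendsto_inv_nhdsGT_zero.comp h2)
  have himg : Γ '' Ioo t₀ 1 = Ioi (Γ t₀) := by
    refine Subset.antisymm (image_subset_iff.2 fun t ht => hmono h₀ (hsub ht) ht.1) fun v hv => ?_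
    obtain ⟨b, hbv, hb, -⟩ := ((hlim.eventually_gt_atTop v).and
      ((show ∀ᶠ t in 𝓝[<] (1 : ℝ), t ∈ Ioo t₀ 1 from Ioo_mem_nhdsLT h₀.2).and
        self_mem_nhdsWithin)).exists
    obtain ⟨t, ht, htv⟩ := intermediate_value_Ioo hb.1.le
      (fun t ht => (hd t ⟨h₀.1.trans_le ht.1, ht.2.trans_lt hb.2⟩).continuousAt.continuousWithinAt)
      ⟨hv, hbv⟩
    exact ⟨t, ⟨ht.1, ht.2.trans hb.2⟩, htv⟩
  have hw' : ∀ t ∈ Ioo t₀ 1, HasDerivWithinAt Γ (w * rate p g σ t / arc (σ t) ^ 3) (Ioo t₀ 1) t :=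
    fun t ht => (hd t (hsub ht)).hasDerivWithinAt
  have e1 := integral_image_eq_integral_deriv_smul_of_monotoneOn measurableSet_Ioo hw'
    (hmono.monotoneOn.mono hsub) (wt 0)
  have i1 := (integrableOn_image_iff_integrableOn_deriv_smul_of_monotoneOn measurableSet_Ioo hw'
    (hmono.monotoneOn.mono hsub) (wt 0)).1 (by rw [himg]; exact (tail_eq_integral _).1)
  rw [himg, (tail_eq_integral _).2] at e1
  simp only [smul_eq_mul, hΓ] at i1 e1
  refine ⟨IntegrableOn.congr_fun i1 (fun t _ => mul_comm _ _) measurableSet_Ioo, ?_⟩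
  rw [e1]
  exact setIntegral_congr_fun measurableSet_Ioo fun t _ => mul_comm _ _

/-- The chi mean of the Gaussian mass over the curve is the mass of the lift above the height. -/
theorem tail_mass (hg : Regular g) (hσ : Transport p g σ) (hy : 0 < y) :
    ∫ w in Ioi (0 : ℝ), wt (p + 2) w * tail (curveR σ y w * σ (y / curveR σ y w)) =
      ∫ z in Ioi y, liftDens p g z := by
  set gc := clamp g with hgc
  set sc := clamp σ with hsc
  have mg : Measurable gc := measurable_clamp (continuousOn_profile hg)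
  have ms : Measurable sc := measurable_clamp hσ.cont
  have mc : Measurable fun t => arc (sc t) := continuous_arc.measurable.comp ms
  set rc := fun t => gc t ^ (p + 1) / arc (sc t) ^ (p + 1) with hrc
  have mr : Measurable rc := (mg.pow_const _).div (mc.pow_const _)
  set U : Set (ℝ × ℝ) := {z | y * arc (sc z.1) < z.2 * z.1} with hU
  have hUm : MeasurableSet U := measurableSet_lt ((mc.comp measurable_fst).const_mul y)
    (measurable_snd.mul measurable_fst)
  set J : ℝ × ℝ → ℝ := U.indicator fun z => wt (p + 2) z.2 *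
    (wt 0 (z.2 * sc z.1 / arc (sc z.1)) * (z.2 * rc z.1 / arc (sc z.1) ^ 3)) with hJ
  have hJm : Measurable J :=
    (((Stam.continuous_wt _).measurable.comp measurable_snd).mul
      (((Stam.continuous_wt 0).measurable.comp ((measurable_snd.mul (ms.comp measurable_fst)).div
        (mc.comp measurable_fst))).mul ((measurable_snd.mul (mr.comp measurable_fst)).div
          ((mc.comp measurable_fst).pow_const 3)))).indicator hUm
  have hval : ∀ t ∈ Ioo (0 : ℝ) 1, gc t = g t ∧ sc t = σ t ∧ rc t = rate p g σ t := fun t ht => by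
    simp only [hgc, hsc, hrc, clamp_eq ht, rate, and_self]
  -- the integral over the abscissa
  have hrow : ∀ w, 0 < w → IntegrableOn (fun t => J (t, w)) (Ioo 0 1) ∧
      ∫ t in Ioo (0 : ℝ) 1, J (t, w) =
        wt (p + 2) w * tail (curveR σ y w * σ (y / curveR σ y w)) := by
    intro w hw
    have hR := curveR_mem hg hσ hy hw
    have hWR : curveR σ y w * arc (σ (y / curveR σ y w)) = w := liftW_curveR hg hσ hy hw
    generalize curveR σ y w = R at hR hWR ⊢
    have h₀ := div_mem_Ioo hy hR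
    have hR0 := hy.trans hR
    have hs0 := hσ.mem_Ioo _ h₀
    have hc0 : 0 < arc (σ (y / R)) := arc_pos ⟨by linarith [hs0.1], hs0.2⟩
    have hy' : y * arc (σ (y / R)) = w * (y / R) := by
      rw [← hWR]
      field_simp
    have harc : ∀ a b : ℝ, a ∈ Icc (0 : ℝ) 1 → b ∈ Icc (0 : ℝ) 1 → a ≤ b →
        arc (σ b) ≤ arc (σ a) := fun a b ha hb hab => Real.sqrt_le_sqrt (by
      have := (strictMonoOn_sigma hg hσ).monotoneOn ha hb hab
      nlinarith [(hσ.mem a ha).1])
    have hmem : ∀ t ∈ Ioo (0 : ℝ) 1, (t, w) ∈ U ↔ y / R < t := fun t ht => by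
      show y * arc (sc t) < w * t ↔ _
      rw [(hval t ht).2.1]
      refine ⟨fun h => ?_, fun h => ?_⟩
      · by_contra hle
        rw [not_lt] at hle
        nlinarith [harc t (y / R) (Ioo_subset_Icc_self ht) (Ioo_subset_Icc_self h₀) hle]
      · nlinarith [harc (y / R) t (Ioo_subset_Icc_self h₀) (Ioo_subset_Icc_self ht) h.le]
    have he : EqOn (fun t => J (t, w)) ((Ioo (y / R) 1).indicator fun t => wt (p + 2) w *
        (wt 0 (w * σ t / arc (σ t)) * (w * rate p g σ t / arc (σ t) ^ 3))) (Ioo 0 1) := by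
      intro t ht
      obtain ⟨-, e2, e3⟩ := hval t ht
      by_cases h : y / R < t
      · simp only [hJ, indicator_of_mem ((hmem t ht).2 h), indicator_of_mem
          (show t ∈ Ioo (y / R) 1 from ⟨h, ht.2⟩), e2, e3]
      · simp only [hJ, indicator_of_notMem (fun hm => h ((hmem t ht).1 hm)),
          indicator_of_notMem (fun hm : t ∈ Ioo (y / R) 1 => h hm.1)]
    obtain ⟨i, e⟩ := integral_height hg hσ hw h₀
    have hG : w * σ (y / R) / arc (σ (y / R)) = R * σ (y / R) := by
      rw [← hWR]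
      field_simp
    refine ⟨IntegrableOn.congr_fun ?_ he.symm measurableSet_Ioo, ?_⟩
    · exact ((integrable_indicator_iff measurableSet_Ioo).2 (i.const_mul _)).integrableOn
    · rw [setIntegral_congr_fun measurableSet_Ioo he, setIntegral_indicator measurableSet_Ioo,
        inter_eq_right.2 (Ioo_subset_Ioo_left h₀.1.le), integral_const_mul, e, hG]
  have hJnn : ∀ t ∈ Ioo (0 : ℝ) 1, ∀ w, 0 < w → 0 ≤ J (t, w) := fun t ht w hw => by
    have hs := hσ.mem_Ioo t ht
    obtain ⟨-, e2, e3⟩ := hval t ht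
    by_cases h : (t, w) ∈ U
    · rw [hJ, indicator_of_mem h, e2, e3]
      exact mul_nonneg (wt_pos _ hw).le (mul_nonneg (wt_zero_pos _).le (div_nonneg
        (mul_nonneg hw.le (rate_pos hg hσ ht).le)
        (pow_nonneg (arc_pos ⟨by linarith [hs.1], hs.2⟩).le _)))
    · rw [hJ, indicator_of_notMem h]
  have hi : Integrable J stateMeasure := by
    refine (integrable_prod_iff' hJm.aestronglyMeasurable).2 ⟨?_, ?_⟩
    · filter_upwards [ae_restrict_mem measurableSet_Ioi] with w hw using (hrow w hw).1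
    · refine ((Stam.integrableOn_wt (p + 2)).mul_const (2 * radial 0)).mono'
        (hJm.norm.aestronglyMeasurable.prod_swap.integral_prod_right') ?_
      filter_upwards [ae_restrict_mem measurableSet_Ioi] with w hw
      have hwp := wt_pos (p + 2) (mem_Ioi.1 hw)
      rw [setIntegral_congr_fun measurableSet_Ioo
        (fun t ht => Real.norm_of_nonneg (hJnn t ht w hw)), (hrow w hw).2,
        Real.norm_of_nonneg (mul_nonneg hwp.le (tail_nonneg _))]
      exact mul_le_mul_of_nonneg_left (tail_le _) hwp.le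
  -- the integral over the chi variable
  set F : ℝ → ℝ → ℝ := fun t R => {z : ℝ × ℝ | y < z.2 * z.1}.indicator
    (fun z => wt (p + 2) z.2 * gc z.1 ^ (p + 1)) (t, R) with hF
  have hcol : ∀ t ∈ Ioo (0 : ℝ) 1, ∫ w in Ioi (0 : ℝ), J (t, w) = ∫ R in Ioi (0 : ℝ), R * F t R := by
    intro t ht
    obtain ⟨e1, e2, e3⟩ := hval t ht
    have hs := hσ.mem_Ioo t ht
    have hc : 0 < arc (σ t) := arc_pos ⟨by linarith [hs.1], hs.2⟩
    have hc2 := arc_sq (Ioo_subset_Icc_self hs)
    have h := integral_comp_mul_left_Ioi (fun w => J (t, w)) 0 hc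
    rw [mul_zero, smul_eq_mul] at h
    rw [← mul_inv_cancel_left₀ hc.ne' (∫ w in Ioi (0 : ℝ), J (t, w)), ← h, ← integral_const_mul]
    refine setIntegral_congr_fun measurableSet_Ioi fun R hR => ?_
    have hmem : (t, arc (σ t) * R) ∈ U ↔ y < R * t := by
      show y * arc (sc t) < arc (σ t) * R * t ↔ _
      rw [e2, mul_assoc, mul_comm (arc (σ t)) (R * t), mul_lt_mul_iff_left₀ hc]
    by_cases hRt : y < R * t
    · simp only [hJ, hF, indicator_of_mem (hmem.2 hRt),
        indicator_of_mem (show (t, R) ∈ {z : ℝ × ℝ | y < z.2 * z.1} from hRt), e1, e2, e3, rate]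
      have hexp : Real.exp (-((arc (σ t) * R) ^ 2) / 2) *
          Real.exp (-((arc (σ t) * R * σ t / arc (σ t)) ^ 2) / 2) = Real.exp (-(R ^ 2) / 2) := by
        rw [show arc (σ t) * R * σ t / arc (σ t) = R * σ t by field_simp, ← Real.exp_add]
        congr 1
        linear_combination (-(R ^ 2) / 2) * hc2
      rw [wt_zero]
      simp only [wt]
      rw [← hexp, mul_pow (arc (σ t)) R (p + 2), pow_succ (arc (σ t)) (p + 1)]
      field_simp
    · simp only [hJ, hF, indicator_of_notMem (fun hm => hRt (hmem.1 hm)),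
        indicator_of_notMem (fun hm : (t, R) ∈ {z : ℝ × ℝ | y < z.2 * z.1} => hRt hm), mul_zero]
  have hFm : Measurable (Function.uncurry F) :=
    (((Stam.continuous_wt _).measurable.comp measurable_snd).mul
      ((mg.pow_const _).comp measurable_fst)).indicator
      (measurableSet_lt measurable_const (measurable_snd.mul measurable_fst))
  have hFi : Integrable (fun z : ℝ × ℝ => z.2 * F z.1 z.2) stateMeasure := by
    obtain ⟨C, hC⟩ := isCompact_Icc.exists_bound_of_continuousOn
      ((continuousOn_profile hg).pow (p + 1))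
    have hb : Integrable (fun z : ℝ × ℝ => C * wt (p + 3) z.2) stateMeasure :=
      Integrable.mul_prod (integrable_const C) (Stam.integrableOn_wt (p + 3))
    refine hb.mono' (measurable_snd.mul hFm).aestronglyMeasurable ?_
    rw [stateMeasure, Measure.prod_restrict]
    filter_upwards [ae_restrict_mem (measurableSet_Ioo.prod measurableSet_Ioi)] with z hz
    have hR : 0 < z.2 := hz.2
    simp only [hF, norm_mul, norm_indicator_eq_indicator_norm, Real.norm_of_nonneg hR.le]
    refine (mul_le_mul_of_nonneg_left (indicator_le_self'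
      (f := fun z : ℝ × ℝ => ‖wt (p + 2) z.2‖ * ‖gc z.1 ^ (p + 1)‖)
      (fun _ _ => mul_nonneg (norm_nonneg _) (norm_nonneg _)) _)
      hR.le).trans ?_
    have h1 := hC z.1 (Ioo_subset_Icc_self hz.1)
    simp only [Pi.pow_apply] at h1 ⊢
    rw [hgc, clamp_eq hz.1, Real.norm_of_nonneg (wt_pos (p + 2) hR).le, ← mul_assoc,
      show z.2 * wt (p + 2) z.2 = wt (p + 3) z.2 by simp only [wt]; ring, mul_comm]
    exact mul_le_mul_of_nonneg_right h1 (wt_pos (p + 3) hR).le
  obtain ⟨-, -, v⟩ := polar_swap hFm hFi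
  have hinner : ∀ z ∈ Ioi (0 : ℝ), ∫ R in Ioi z, F (z / R) R =
      (Ioi y).indicator (liftDens p g) z := fun z hz => by
    by_cases hyz : y < z
    · rw [indicator_of_mem (mem_Ioi.2 hyz), liftDens_eq hz]
      refine setIntegral_congr_fun measurableSet_Ioi fun R hR => ?_
      have hR0 : 0 < R := (mem_Ioi.1 hz).trans hR
      simp only [hF, indicator_of_mem (show (z / R, R) ∈ {z : ℝ × ℝ | y < z.2 * z.1} by
        show y < R * (z / R); rwa [mul_div_cancel₀ _ hR0.ne'])]
      rw [hgc, clamp_eq (div_mem_Ioo hz hR)]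
    · rw [indicator_of_notMem (fun hm => hyz (mem_Ioi.1 hm))]
      refine setIntegral_eq_zero_of_forall_eq_zero fun R hR => ?_
      have hR0 : 0 < R := (mem_Ioi.1 hz).trans hR
      refine indicator_of_notMem (fun hm => hyz ?_) _
      have hm' : y < R * (z / R) := hm
      rwa [mul_div_cancel₀ _ hR0.ne'] at hm'
  calc _ = ∫ w in Ioi (0 : ℝ), ∫ t in Ioo (0 : ℝ) 1, J (t, w) :=
        setIntegral_congr_fun measurableSet_Ioi fun w hw => ((hrow w hw).2).symm
    _ = ∫ t in Ioo (0 : ℝ) 1, ∫ w in Ioi (0 : ℝ), J (t, w) :=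
        (integral_integral_swap (f := fun t w => J (t, w)) hi).symm
    _ = ∫ t in Ioo (0 : ℝ) 1, ∫ R in Ioi (0 : ℝ), R * F t R :=
        setIntegral_congr_fun measurableSet_Ioo hcol
    _ = ∫ z, z.2 * F z.1 z.2 ∂stateMeasure := (integral_prod _ hFi).symm
    _ = ∫ z in Ioi (0 : ℝ), (Ioi y).indicator (liftDens p g) z := by
        rw [← v]; exact setIntegral_congr_fun measurableSet_Ioi hinner
    _ = _ := by rw [setIntegral_indicator measurableSet_Ioi, Ioi_inter_Ioi, max_eq_right hy.le]

end Vale.Agent.P237.Petty.Lift.Star
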