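import Vale.Agent.P237.Petty.Lift.Star.Main
import Vale.Agent.P237.Petty.Lift.Star.Bobkov
import Vale.Agent.P237.Petty.Lift.AllDimensions

/-!
# P237: every dimension from the criterion with the mean gradient

The Gaussian inequality of Bobkov is discharged: the criterion, or the sign of its integrand, gives
the step, and in every order from four on it gives the inequality with its equality cases in every
dimension.
-/

namespace Vale.Agent.P237.Petty.Lift.Star

open MeasureTheory Set Module

universe u

/-- The entropy of the lift is at most that of the Gaussian plus the mean gradient term. -/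
theorem entropyBoundStar {p : ℕ} {g σ : ℝ → ℝ} (hg : Regular g) (hσ : Transport p g σ)
    {β lam : ℝ} (hβ : 0 ≤ β) (hlam : 0 < lam) :
    IntervalIntegrable
        (fun t => g t ^ (p + 1) * starE p β lam (σ t) t (Ident.rate p g σ t)) volume 0 1 ∧
      entTerm p g (liftTest p g) ≤
        (∫ t in (0 : ℝ)..1, g t ^ (p + 1) * starE p β lam (σ t) t (Ident.rate p g σ t)) /
          Ident.half (p + 1) :=
  entropy_star gauss_bobkov hg hσ hβ hlam

theorem stepHolds_of_starCriterion {p : ℕ} (hp : 1 ≤ p) {nu : ℝ} (hnu : 0 ≤ nu)
    (h : StarCriterion p nu) : StepHolds.{u} p :=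
  stepHolds_of_star gauss_bobkov hp hnu h

theorem stepHolds_of_signStar {p : ℕ} (hp : 1 ≤ p) (h : PointwiseStar p) : StepHolds.{u} p :=
  stepHolds_of_pointwiseStar gauss_bobkov hp h

/-- The sign in every order from four on gives the inequality in every dimension. -/
theorem petty_of_pointwiseStar (h : ∀ p, 4 ≤ p → PointwiseStar p) {n : ℕ} (hn : 3 ≤ n) {E : Type}
    [NormedAddCommGroup E] [InnerProductSpace ℝ E] [FiniteDimensional ℝ E] [MeasurableSpace E]
    [BorelSpace E] (hfin : finrank ℝ E = n) {K : Set E} (hK : Body K) :
    cPetty n * volume.real K ^ (n - 1) ≤ volume.real (projBody K) ∧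
      (volume.real (projBody K) = cPetty n * volume.real K ^ (n - 1) ↔
        ∃ (T : E ≃L[ℝ] E) (a : E), K = (fun x => a + x) '' (T '' Metric.closedBall 0 1)) :=
  petty_of_steps hn (fun p hp1 _ => by
    rcases lt_or_ge p 4 with h4 | h4
    · exact Hull.Five.steps_upto_five p hp1 (by omega)
    · exact stepHolds_of_signStar hp1 (h p h4)) hfin hK

end Vale.Agent.P237.Petty.Lift.Star
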